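import Vale.Agent.P166.Rsb.Slot.Bounds

/-!
# P166: comparison of the ends of the path

The interpolation of `Vale.Agent.P157.Rsb.Slot`, for a field with an offset that depends on the leaf
and a row whose squared length is only close to the total variance.
-/

open MeasureTheory ProbabilityTheory Real Finset
open Vale.Agent.P157.Rsb
open Vale.Agent.P157.Rsb.Slot

namespace Vale.Agent.P166.Rsb.Slot

variable {k m : ℕ} {ι X0 : Type} [Fintype ι] [DecidableEq ι] [MeasurableSpace X0]
  {μ0 : Measure X0} [IsProbabilityMeasure μ0] (C : Cas k m ι X0)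
  {f f1 f2 f3 : ℝ → ℝ} {R B : ℝ} (ε : ℝ) (D D' : ℕ → ℝ)

omit [DecidableEq ι] in
/-- The derivative of the root value along a family. -/
theorem hasDerivAt_val_fam (hP : Pot R B f f1 f2 f3) {U V : ℝ → (Fin k → ι → ℝ) → X0 × ℝ → ℝ}
    {s₀ r : ℝ} (hU : Fam (gaussSize ι) R U V s₀ r) (l : ℕ) (z : Fin k → ι → ℝ) :
    HasDerivAt (fun s => val (stdG ι) (μ0.prod (gaussianReal 0 1)) (ham1 C.base f (U s)) l z)
      (ecnd μ0 C f (U s₀) (fun z x => V s₀ z x * f1 (U s₀ z x)) l z) s₀ := by
  obtain ⟨A, hA, hb⟩ := hU.bound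
  obtain ⟨A0, hA0, hb0⟩ := C.base_lin.bound
  have hB : 0 ≤ B := zero_le_one.trans hP.one_le
  set K := A + A0 + B * A + B with hK
  have hK0 : 0 ≤ K := by positivity
  have F : Family (gaussSize ι) (fun s => ham1 C.base f (U s)) (fun _ _ _ => 0)
      (fun s z x => V s z x * f1 (U s z x)) (fun _ _ _ => 0) s₀ r := by
    refine ⟨hU.pos, fun s => (linB_ham1 C.base_lin hP.hf (hU.measU s)).meas,
      fun s => (hU.measV s).mul (hP.hf1.meas.comp (hU.measU s)), fun _ => measurable_const,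
      fun _ => measurable_const, ⟨K, hK0, fun s hs z x => ?_⟩,
      fun s hs z x => (((hP.d1 _).comp s (hU.deriv s hs z x)).const_add (C.base z x)).congr_deriv
        (mul_comm _ _),
      fun s _ z x => hasDerivAt_const s (0 : ℝ)⟩
    have ht := Size.tot_nonneg (gaussSize ι) z
    refine ⟨(abs_add_le _ _).trans ((add_le_add (hb0 z x) (hP.hf.bound _)).trans ?_), ?_,
      by simp only [abs_zero]; positivity, by simp only [abs_zero]; positivity⟩
    · rw [hK]; nlinarith [mul_nonneg hB hA]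
    · rcases lt_or_ge R |U s z x| with hlt | hle
      · rw [hP.hf1.zero _ hlt, mul_zero, abs_zero]; positivity
      · rw [abs_mul]
        calc |V s z x| * |f1 (U s z x)| ≤ A * exp (A * (gaussSize ι).tot z) * B :=
              mul_le_mul (hb s hs z x hle) (hP.hf1.bound _) (abs_nonneg _) (by positivity)
          _ = B * A * exp (A * (gaussSize ι).tot z) := by ring
          _ ≤ _ := mul_le_mul (by rw [hK]; linarith) (exp_le_exp.2 (mul_le_mul_of_nonneg_right
              (by rw [hK]; linarith [mul_nonneg hB hA]) ht)) (exp_pos _).le hK0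
  exact hasDerivAt_val F l z

omit [DecidableEq ι] in
theorem continuous_pU (g : Fin m → ℝ) (z : Fin k → ι → ℝ) (x : X0 × ℝ) :
    Continuous fun θ => pU C ε D D' θ g z x := by
  simp only [pU, Cas.fld, Cas.lin]
  exact ((((continuous_const.mul continuous_cos).mul continuous_const).add
    (continuous_finsetSum _ fun l _ => continuous_amp.mul continuous_const)).add
    (continuous_amp.mul continuous_const)).add continuous_const

variable (μ0) in
/-- The averaged root value. -/
noncomputable def pVal (f : ℝ → ℝ) (θ : ℝ) : ℝ :=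
  ∫ g, val (stdG ι) (μ0.prod (gaussianReal 0 1)) (ham1 C.base f (pU C ε D D' θ g)) 0 (fun _ _ => 0)
    ∂stdG (Fin m)

variable (μ0) in
/-- The averaged product of two nodes of level `j`. -/
noncomputable def pPair (f : ℝ → ℝ) (a a' : X0 → ℝ) (e : ℝ → ℝ) (j : ℕ) (θ : ℝ) : ℝ :=
  ∫ g, ecnd μ0 C f (pU C ε D D' θ g) (fun z _ =>
      node (stdG ι) (μ0.prod (gaussianReal 0 1)) C.base f (fun x => a x.1) e (pU C ε D D' θ g) j z
        * node (stdG ι) (μ0.prod (gaussianReal 0 1)) C.base f (fun x => a' x.1) e (pU C ε D D' θ g) j z)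
    0 (fun _ _ => 0) ∂stdG (Fin m)

section Continuity

variable (hP : Pot R B f f1 f2 f3)
include hP

omit [DecidableEq ι] in
theorem continuous_pVal : Continuous (pVal μ0 C ε D D' f) := by
  have hfc : Continuous f := continuous_iff_continuousAt.2 fun u => (hP.d1 u).continuousAt
  refine continuous_of_dominated (bound := fun _ => |val (stdG ι) (μ0.prod (gaussianReal 0 1)) C.base 0
      (fun _ _ => 0)| + B) (fun θ => ?_) (fun θ => ae_of_all _ fun g => ?_) (integrable_const _)
    (ae_of_all _ fun g => ?_)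
  · exact (val_measurable_param_at (P := Fin m → ℝ) (H := fun g => ham1 C.base f (pU C ε D D' θ g))
      (jm_ham1 C.base_lin hP.hf.meas (pU_jm C ε D D' θ)) 0 _).aestronglyMeasurable
  · rw [Real.norm_eq_abs]
    have h := val_close (γ := stdG ι) (μ := μ0.prod (gaussianReal 0 1)) C.base_lin
      (linB_ham1 C.base_lin hP.hf ((pU_jm C ε D D' θ).at' g)) (L := B)
      (fun z x => by simpa [ham1] using hP.hf.bound _) 0 (fun _ _ => 0)
    linarith [abs_sub_abs_le_abs_sub (val (stdG ι) (μ0.prod (gaussianReal 0 1))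
      (ham1 C.base f (pU C ε D D' θ g)) 0 (fun _ _ => 0))
      (val (stdG ι) (μ0.prod (gaussianReal 0 1)) C.base 0 (fun _ _ => 0))]
  · exact (continuous_cnd_path C ε D D' hP.hf hfc g (φ := fun _ _ _ => 0) (fun _ => measurable_const)
      (M := 0) (fun _ _ _ => by simp) (fun _ _ => continuous_const) 0 _).1

omit [DecidableEq ι] in
theorem continuous_pPair {e e' : ℝ → ℝ} (he : Obs R B e e') {a a' : X0 → ℝ} (ha : Measurable a)
    (ha' : Measurable a') {R0 : ℝ} (hab : ∀ x, |a x| ≤ R0) (hab' : ∀ x, |a' x| ≤ R0) (j : ℕ) :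
    Continuous (pPair μ0 C ε D D' f a a' e j) := by
  have hfc : Continuous f := continuous_iff_continuousAt.2 fun u => (hP.d1 u).continuousAt
  have hec : Continuous e := continuous_iff_continuousAt.2 fun u => (he.der u).continuousAt
  have hB : 0 ≤ B := zero_le_one.trans hP.one_le
  have pA : ∀ {a : X0 → ℝ}, Measurable a → (∀ x, |a x| ≤ R0) → ∀ θ g,
      Measurable (Function.uncurry fun z (x : X0 × ℝ) => a x.1 * e (pU C ε D D' θ g z x)) := fun ha _ θ g =>
    (ha.comp (measurable_fst.comp measurable_snd)).mul (he.meas.comp ((pU_jm C ε D D' θ).at' g))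
  have bA : ∀ {a : X0 → ℝ}, (∀ x, |a x| ≤ R0) → ∀ θ g z (x : X0 × ℝ),
      |a x.1 * e (pU C ε D D' θ g z x)| ≤ |R0| * B := fun hab θ g z x => by
    rw [abs_mul]
    exact mul_le_mul ((hab _).trans (le_abs_self _)) (he.bound _) (abs_nonneg _) (abs_nonneg _)
  have cN : ∀ {a : X0 → ℝ}, Measurable a → (∀ x, |a x| ≤ R0) → ∀ g z, Continuous fun θ =>
      node (stdG ι) (μ0.prod (gaussianReal 0 1)) C.base f (fun x => a x.1) e (pU C ε D D' θ g) j z :=
    fun {a} ha hab g z => (continuous_cnd_path C ε D D' hP.hf hfc g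
      (φ := fun θ z x => a x.1 * e (pU C ε D D' θ g z x)) (fun θ => pA ha hab θ g)
      (fun θ => bA hab θ g) (fun z x => continuous_const.mul (hec.comp (continuous_pU C ε D D' g z x))) j z).2
  have bN : ∀ {a : X0 → ℝ}, Measurable a → (∀ x, |a x| ≤ R0) → ∀ θ g z,
      |node (stdG ι) (μ0.prod (gaussianReal 0 1)) C.base f (fun x => a x.1) e (pU C ε D D' θ g) j z|
        ≤ |R0| * B := fun ha hab θ g z =>
    cnd_abs_le (linB_ham1 C.base_lin hP.hf ((pU_jm C ε D D' θ).at' g)) (pA ha hab θ g) (bA hab θ g) j z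
  have mN : ∀ {a : X0 → ℝ}, Measurable a → ∀ θ, JM fun g z (_ : X0 × ℝ) =>
      node (stdG ι) (μ0.prod (gaussianReal 0 1)) C.base f (fun x => a x.1) e (pU C ε D D' θ g) j z :=
    fun {a} ha θ => jm_cnd C.base_lin hP.hf.meas (pU_jm C ε D D' θ)
      (φ := fun g z x => a x.1 * e (pU C ε D D' θ g z x))
      ((ha.comp (measurable_fst.comp measurable_snd)).mul (he.meas.comp (pU_jm C ε D D' θ))) j
  have bP : ∀ θ g z, |node (stdG ι) (μ0.prod (gaussianReal 0 1)) C.base f (fun x => a x.1) e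
      (pU C ε D D' θ g) j z * node (stdG ι) (μ0.prod (gaussianReal 0 1)) C.base f (fun x => a' x.1) e
      (pU C ε D D' θ g) j z| ≤ (|R0| * B) * (|R0| * B) := fun θ g z => by
    rw [abs_mul]
    exact mul_le_mul (bN ha hab θ g z) (bN ha' hab' θ g z) (abs_nonneg _) (by positivity)
  have mP : ∀ θ, JM fun g z (_ : X0 × ℝ) => node (stdG ι) (μ0.prod (gaussianReal 0 1)) C.base f
      (fun x => a x.1) e (pU C ε D D' θ g) j z
      * node (stdG ι) (μ0.prod (gaussianReal 0 1)) C.base f (fun x => a' x.1) e (pU C ε D D' θ g) j z :=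
    fun θ => (mN ha θ).mul (mN ha' θ)
  refine continuous_of_dominated (bound := fun _ => (|R0| * B) * (|R0| * B)) (fun θ => ?_)
    (fun θ => ae_of_all _ fun g => ?_) (integrable_const _) (ae_of_all _ fun g => ?_)
  · exact (cnd_measurable_param_at (P := Fin m → ℝ) (H := fun g => ham1 C.base f (pU C ε D D' θ g))
      (φ := fun g z _ => node (stdG ι) (μ0.prod (gaussianReal 0 1)) C.base f
        (fun x => a x.1) e (pU C ε D D' θ g) j z
        * node (stdG ι) (μ0.prod (gaussianReal 0 1)) C.base f (fun x => a' x.1) e (pU C ε D D' θ g) j z)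
      (jm_ham1 C.base_lin hP.hf.meas (pU_jm C ε D D' θ)) (mP θ) 0 _).aestronglyMeasurable
  · rw [Real.norm_eq_abs]
    exact cnd_abs_le (linB_ham1 C.base_lin hP.hf ((pU_jm C ε D D' θ).at' g))
      ((mP θ).at' g) (fun z _ => bP θ g z) 0 _
  · exact (continuous_cnd_path C ε D D' hP.hf hfc g
      (φ := fun θ z _ => node (stdG ι) (μ0.prod (gaussianReal 0 1)) C.base f (fun x => a x.1) e
          (pU C ε D D' θ g) j z
        * node (stdG ι) (μ0.prod (gaussianReal 0 1)) C.base f (fun x => a' x.1) e (pU C ε D D' θ g) j z)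
      (fun θ => (mP θ).at' g) (fun θ z _ => bP θ g z)
      (fun z _ => (cN ha hab g z).mul (cN ha' hab' g z)) 0 _).2

end Continuity

variable (hP : Pot R B f f1 f2 f3) (hD : ∀ l, 0 ≤ D l) (hD' : ∀ l, 0 ≤ D' l)
include hP hD hD'

/-- The averaged root value at both ends. -/
theorem interp_val :
    |pVal μ0 C ε D D' f (π / 2) - pVal μ0 C ε D D' f 0|
      ≤ 2 * (B * exp (4 * B) * B * terr μ0 C ε D D') := by
  have hB : 0 ≤ B := zero_le_one.trans hP.one_le
  have one := nd_one (γ := stdG ι) (μ := μ0.prod (gaussianReal 0 1)) C.base_lin hP.hf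
  refine abs_end_sub_le (G' := fun θ => vel μ0 C ε D D' f θ fun g z x => f1 (pU C ε D D' θ g z x))
    (continuous_pVal C ε D D' hP) (fun θ h0 h1 => ?_) (fun θ h0 h1 => ?_)
  · refine hasDerivAt_root (μ0 := μ0) C ε D D' hP.hf hD hD' h0 h1
      (V := fun θ g => val (stdG ι) (μ0.prod (gaussianReal 0 1)) (ham1 C.base f (pU C ε D D' θ g)) 0
        (fun _ _ => 0))
      (fun θ => val_measurable_param_at (P := Fin m → ℝ)
        (H := fun g => ham1 C.base f (pU C ε D D' θ g))
        (jm_ham1 C.base_lin hP.hf.meas (pU_jm C ε D D' θ)) 0 _)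
      (Mv := |val (stdG ι) (μ0.prod (gaussianReal 0 1)) C.base 0 (fun _ _ => 0)| + B) (fun θ g => ?_)
      (φ := fun θ g z x => f1 (pU C ε D D' θ g z x))
      (fun θ => ⟨pb_comp (pU_jm C ε D D' θ) hP.hf1, fun g z x h => hP.hf1.zero _ h⟩) (M := B)
      (fun θ g z x => hP.hf1.bound _) (fun g s r hF => hasDerivAt_val_fam C hP hF 0 _)
    have h := val_close (γ := stdG ι) (μ := μ0.prod (gaussianReal 0 1)) C.base_lin
      (linB_ham1 C.base_lin hP.hf ((pU_jm C ε D D' θ).at' g)) (L := B)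
      (fun z x => by simpa [ham1] using hP.hf.bound _) 0 (fun _ _ => 0)
    linarith [abs_sub_abs_le_abs_sub (val (stdG ι) (μ0.prod (gaussianReal 0 1))
      (ham1 C.base f (pU C ε D D' θ g)) 0 (fun _ _ => 0))
      (val (stdG ι) (μ0.prod (gaussianReal 0 1)) C.base 0 (fun _ _ => 0))]
  · have hv := vb_mono C ε D D' hP one one hP.hf1 hP.hf2 hP.d2 (b := fun _ => 1) measurable_const
      (Mb := 1) (fun _ => by simp) hD hD' h0 h1 (K1 := 0) (K2 := 0) (fun _ _ _ => by simp)
      (fun _ _ _ => by simp)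
    refine (VB.congr C ε D D' hv fun g z x => by simp [obs]).le.trans (le_of_eq ?_)
    simp only [abs_one, abs_zero]
    ring

/-- The averaged product at both ends. -/
theorem interp_pair {e e' : ℝ → ℝ} (he : Obs R B e e') {gh gh' : ℝ → ℝ} (hg : Cpt R B gh)
    (hg' : Cpt R B gh') (hgd : ∀ u, HasDerivAt gh (gh' u) u) (heq : ∀ u, e' u + e u * f1 u = gh u)
    {a a' : X0 → ℝ} (ha : Measurable a) (ha' : Measurable a') {R0 : ℝ} (hab : ∀ x, |a x| ≤ R0)
    (hab' : ∀ x, |a' x| ≤ R0) {j : ℕ} (hj : j ≤ k) :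
    |pPair μ0 C ε D D' f a a' e j (π / 2) - pPair μ0 C ε D D' f a a' e j 0|
      ≤ 2 * (16 * (54 * exp (4 * B) * B ^ 7 * R0 ^ 2)
          * (berr μ0 C ε D D' j + terr μ0 C ε D D')) := by
  have hB1 := hP.one_le
  have hB : 0 ≤ B := zero_le_one.trans hB1
  have one := nd_one (γ := stdG ι) (μ := μ0.prod (gaussianReal 0 1)) C.base_lin hP.hf
  have nA := fun l (hl : l ≤ k) => nd_node (γ := stdG ι) (μ := μ0.prod (gaussianReal 0 1))
    (a := fun x : X0 × ℝ => a x.1) C.base_lin hP (ha.comp measurable_fst) (fun x => hab x.1) he hl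
  have nB := fun l (hl : l ≤ k) => nd_node (γ := stdG ι) (μ := μ0.prod (gaussianReal 0 1))
    (a := fun x : X0 × ℝ => a' x.1) C.base_lin hP (ha'.comp measurable_fst) (fun x => hab' x.1) he hl
  have nP := nd_mul C.base_lin hP.hf (nA j hj) (nB j hj)
  have nC := fun l (hl : l ≤ j) => nd_proj C.base_lin hP nP hl
  set P2 : ((Fin k → ι → ℝ) → X0 × ℝ → ℝ) → (Fin k → ι → ℝ) → ℝ := fun U z =>
    node (stdG ι) (μ0.prod (gaussianReal 0 1)) C.base f (fun x => a x.1) e U j z
      * node (stdG ι) (μ0.prod (gaussianReal 0 1)) C.base f (fun x => a' x.1) e U j z with hP2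
  set S0 : ((Fin k → ι → ℝ) → X0 × ℝ → ℝ) → (Fin k → ι → ℝ) → X0 × ℝ → ℝ := fun U z x =>
    (node (stdG ι) (μ0.prod (gaussianReal 0 1)) C.base f (fun x => a' x.1) e U j z
        * slot (stdG ι) (μ0.prod (gaussianReal 0 1)) C.base f f1 (fun x => a x.1) e e' U j z x
      + node (stdG ι) (μ0.prod (gaussianReal 0 1)) C.base f (fun x => a x.1) e U j z
        * slot (stdG ι) (μ0.prod (gaussianReal 0 1)) C.base f f1 (fun x => a' x.1) e e' U j z x)
      + (P2 U z - corr k (fun i => cnd (stdG ι) (μ0.prod (gaussianReal 0 1)) (ham1 C.base f U)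
          (fun z _ => P2 U z) i z) 0) * f1 (U z x) with hS0
  refine abs_end_sub_le (G' := fun θ => vel μ0 C ε D D' f θ fun g => S0 (pU C ε D D' θ g))
    (continuous_pPair C ε D D' hP he ha ha' hab hab' j) (fun θ h0 h1 => ?_) (fun θ h0 h1 => ?_)
  · exact hasDerivAt_root (μ0 := μ0) C ε D D' hP.hf hD hD' h0 h1
      (V := fun θ g => ecnd μ0 C f (pU C ε D D' θ g) (fun z _ => P2 (pU C ε D D' θ g) z) 0 (fun _ _ => 0))
      (fun θ => cnd_measurable_param_at (P := Fin m → ℝ)
        (H := fun g => ham1 C.base f (pU C ε D D' θ g)) (φ := fun g z _ => P2 (pU C ε D D' θ g) z)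
        (jm_ham1 C.base_lin hP.hf.meas (pU_jm C ε D D' θ)) (nP.meas _ _ (pU_jm C ε D D' θ)).1 0 _)
      (fun θ g => (nC 0 (Nat.zero_le j)).bound _ ((pU_jm C ε D D' θ).at' g) _)
      (φ := fun θ g => S0 (pU C ε D D' θ g))
      (fun θ => ⟨(nC 0 (Nat.zero_le j)).pbη (pU_jm C ε D D' θ),
        fun g z x h => ((nC 0 (Nat.zero_le j)).slot _ ((pU_jm C ε D D' θ).at' g) z x).2 h⟩)
      (fun θ g z x => ((nC 0 (Nat.zero_le j)).slot _ ((pU_jm C ε D D' θ).at' g) z x).1)
      (fun g s r hF => (nC 0 (Nat.zero_le j)).deriv _ _ s r hF _)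
  set n : ℝ := 3 * |R0| * B ^ 2 with hn
  set W : ℝ := 54 * exp (4 * B) * B ^ 7 * R0 ^ 2 with hW
  set T := terr μ0 C ε D D' with hT
  set E := berr μ0 C ε D D' with hE
  have hT0 : 0 ≤ T := terr_nonneg C ε D D'
  have hE0 : ∀ l, 0 ≤ E l := berr_nonneg C ε D D'
  have hW0 : 0 ≤ W := by positivity
  have hn0 : 0 ≤ n := by positivity
  have hUm : ∀ g, Measurable (Function.uncurry (pU C ε D D' θ g)) := fun g => (pU_jm C ε D D' θ).at' g
  set U := pU C ε D D' θ with hUdef
  set A := fun g i z => node (stdG ι) (μ0.prod (gaussianReal 0 1)) C.base f (fun x => a x.1) e (U g) i z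
    with hA
  set A' := fun g i z => node (stdG ι) (μ0.prod (gaussianReal 0 1)) C.base f (fun x => a' x.1) e (U g) i z
    with hA'
  set Q := fun g i z => cnd (stdG ι) (μ0.prod (gaussianReal 0 1)) (ham1 C.base f (U g))
    (fun z _ => A g j z * A' g j z) i z with hQ
  have hB7 : ∀ i : ℕ, i ≤ 7 → B ^ i ≤ B ^ 7 := fun i hi => pow_le_pow_right₀ hB1 hi
  have hWc : ∀ c : ℝ, ∀ i : ℕ, i ≤ 7 → 0 ≤ c → c ≤ 54 → c * exp (4 * B) * B ^ i * R0 ^ 2 ≤ W :=
    fun c i hi hc0 hc => by
      rw [hW]; gcongr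
  -- a leaf observable times one node
  have o1 : ∀ {b : X0 → ℝ}, Measurable b → (∀ x, |b x| ≤ R0) → ∀ {c : X0 → ℝ}, Measurable c →
      (∀ x, |c x| ≤ R0) → VB μ0 C ε D D' f R θ (fun g => obs b gh (U g)
        (fun z => node (stdG ι) (μ0.prod (gaussianReal 0 1)) C.base f (fun x => c x.1) e (U g) j z)
        (fun _ => 1)) (W * (E j + T)) := by
    intro b hb hbb c hc hcb
    have nc := nd_node (γ := stdG ι) (μ := μ0.prod (gaussianReal 0 1))
      (a := fun x : X0 × ℝ => c x.1) C.base_lin hP (hc.comp measurable_fst) (fun x => hcb x.1) he hj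
    refine (vb_mono C ε D D' hP nc one hg hg' hgd hb hbb hD hD' h0 h1 (K1 := n) (K2 := 0)
      (fun g z x => (nc.slot _ (hUm g) z x).1) (fun _ _ _ => by simp)).mono' C ε D D' ?_
    rw [abs_one, abs_zero, mul_zero, zero_mul, add_zero, one_mul, mul_one, ← hn, abs_of_nonneg hn0, ← hE,
      ← hT]
    calc |R0| * B * exp (4 * B) * (n * E j + n * B * T)
        ≤ |R0| * B * exp (4 * B) * (n * B * E j + n * B * T) :=
          mul_le_mul_of_nonneg_left (add_le_add (mul_le_mul_of_nonneg_right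
            (le_mul_of_one_le_right hn0 hB1) (hE0 j)) le_rfl) (by positivity)
      _ = 3 * exp (4 * B) * B ^ 4 * R0 ^ 2 * (E j + T) := by rw [hn, ← sq_abs R0]; ring
      _ ≤ _ := mul_le_mul_of_nonneg_right (hWc 3 4 (by norm_num) (by norm_num) (by norm_num))
          (add_nonneg (hE0 j) hT0)
  -- two nodes
  have o2 : ∀ {c c' : X0 → ℝ}, Measurable c → (∀ x, |c x| ≤ R0) → Measurable c' →
      (∀ x, |c' x| ≤ R0) → ∀ i ≤ k, VB μ0 C ε D D' f R θ (fun g => obs (fun _ => 1) f1 (U g)
        (fun z => node (stdG ι) (μ0.prod (gaussianReal 0 1)) C.base f (fun x => c x.1) e (U g) i z)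
        (fun z => node (stdG ι) (μ0.prod (gaussianReal 0 1)) C.base f (fun x => c' x.1) e (U g) j z))
        (W * (E i + E j + T)) := by
    intro c c' hc hcb hc' hcb' i hi
    have nc := nd_node (γ := stdG ι) (μ := μ0.prod (gaussianReal 0 1))
      (a := fun x : X0 × ℝ => c x.1) C.base_lin hP (hc.comp measurable_fst) (fun x => hcb x.1) he hi
    have nc' := nd_node (γ := stdG ι) (μ := μ0.prod (gaussianReal 0 1))
      (a := fun x : X0 × ℝ => c' x.1) C.base_lin hP (hc'.comp measurable_fst) (fun x => hcb' x.1) he hj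
    refine (vb_mono C ε D D' hP nc nc' hP.hf1 hP.hf2 hP.d2 (b := fun _ => 1) measurable_const (Mb := 1)
      (fun _ => by simp) hD hD' h0 h1 (K1 := n) (K2 := n) (fun g z x => (nc.slot _ (hUm g) z x).1)
      (fun g z x => (nc'.slot _ (hUm g) z x).1)).mono' C ε D D' ?_
    rw [abs_one, one_mul, ← hn, abs_of_nonneg hn0, ← hE, ← hT]
    calc B * exp (4 * B) * (n * n * E i + n * n * E j + n * n * B * T)
        ≤ B * exp (4 * B) * (n * n * B * E i + n * n * B * E j + n * n * B * T) :=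
          mul_le_mul_of_nonneg_left (add_le_add (add_le_add
            (mul_le_mul_of_nonneg_right (le_mul_of_one_le_right (by positivity) hB1) (hE0 i))
            (mul_le_mul_of_nonneg_right (le_mul_of_one_le_right (by positivity) hB1) (hE0 j))) le_rfl)
            (by positivity)
      _ = 9 * exp (4 * B) * B ^ 6 * R0 ^ 2 * (E i + E j + T) := by rw [hn, ← sq_abs R0]; ring
      _ ≤ _ := mul_le_mul_of_nonneg_right (hWc 9 6 (by norm_num) (by norm_num) (by norm_num))
          (add_nonneg (add_nonneg (hE0 i) (hE0 j)) hT0)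
  -- a projected product
  have o3 : ∀ i, VB μ0 C ε D D' f R θ (fun g => obs (fun _ => 1) f1 (U g) (fun z => Q g i z) (fun _ => 1))
      (W * (E (min i j) + T)) := by
    intro i
    have hQe : ∀ g z, cnd (stdG ι) (μ0.prod (gaussianReal 0 1)) (ham1 C.base f (U g))
        (fun z _ => A g j z * A' g j z) (min i j) z = Q g i z := by
      intro g z
      rcases le_total i j with h | h
      · simp only [hQ, min_eq_left h]
      · have hL := linB_ham1 C.base_lin hP.hf (hUm g)
        rw [min_eq_right h]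
        simp only [hQ]
        rw [cnd_const_fun hL (nP.upto _), cnd_const_fun hL ((nP.upto _).mono h)]
    have nc := nC (min i j) (min_le_right i j)
    refine VB.congr C ε D D' ((vb_mono C ε D D' hP nc one hP.hf1 hP.hf2 hP.d2 (b := fun _ => 1)
      measurable_const (Mb := 1) (fun _ => by simp) hD hD' h0 h1 (K2 := 0)
      (fun g z x => (nc.slot _ (hUm g) z x).1) (fun _ _ _ => by simp)).mono' C ε D D' ?_)
      fun g z x => by simp only [obs, ← hQe g z, hA, hA', hUdef]
    have e3 : abs (2 * abs (3 * abs R0 * B ^ 2) * abs (3 * abs R0 * B ^ 2)) = 18 * R0 ^ 2 * B ^ 4 := by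
      rw [abs_of_nonneg (show (0 : ℝ) ≤ 3 * |R0| * B ^ 2 by positivity),
        abs_of_nonneg (by positivity), ← sq_abs R0]
      ring
    rw [abs_one, abs_zero, mul_zero, zero_mul, add_zero, one_mul, mul_one, e3, ← hE, ← hT,
      abs_of_nonneg (show (0 : ℝ) ≤ 3 * (18 * R0 ^ 2 * B ^ 4) * B by positivity), one_mul]
    calc B * exp (4 * B) * (3 * (18 * R0 ^ 2 * B ^ 4) * B * E (min i j)
          + 3 * (18 * R0 ^ 2 * B ^ 4) * B * B * T)
        ≤ B * exp (4 * B) * (3 * (18 * R0 ^ 2 * B ^ 4) * B * B * E (min i j)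
          + 3 * (18 * R0 ^ 2 * B ^ 4) * B * B * T) :=
          mul_le_mul_of_nonneg_left (add_le_add (mul_le_mul_of_nonneg_right
            (le_mul_of_one_le_right (by positivity) hB1) (hE0 _)) le_rfl) (by positivity)
      _ = 54 * exp (4 * B) * B ^ 7 * R0 ^ 2 * (E (min i j) + T) := by ring
      _ = _ := by rw [hW]
  -- assembly
  have hf := hP.hf
  have hm : 0 ≤ mass k := mass_pos.le
  have hcard := mass_card (k := k) j
  have hcard0 := mass_card (k := k) 0
  have hlev0 : 0 ≤ lev k (j + 1) := lev_nonneg _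
  have hlev1 : lev k (j + 1) ≤ 1 := lev_le_one (by omega)
  have hsumE : mass k * ∑ i ∈ Icc (j + 1) k, E i ≤ T :=
    mass_berr_le C ε D D' (Icc_subset_Icc_left (Nat.zero_le _))
  have side : ∀ {c c' : X0 → ℝ}, Measurable c → (∀ x, |c x| ≤ R0) → Measurable c' →
      (∀ x, |c' x| ≤ R0) → VB μ0 C ε D D' f R θ (fun g z x =>
        node (stdG ι) (μ0.prod (gaussianReal 0 1)) C.base f (fun x => c' x.1) e (U g) j z
          * slot (stdG ι) (μ0.prod (gaussianReal 0 1)) C.base f f1 (fun x => c x.1) e e' (U g) j z x)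
        (W * (4 * E j + 4 * T)) := by
    intro c c' hc hcb hc' hcb'
    have v1 := o1 hc hcb hc' hcb'
    have v2 := vb_sum C ε D D' hf hD hD' h0 h1 (Icc (j + 1) k) (fun _ => mass k)
      fun i hi => o2 hc hcb hc' hcb' i (mem_Icc.1 hi).2
    have v3 := vb_smul C ε D D' hf hD hD' h0 h1 (o2 hc hcb hc' hcb' j hj) (lev k (j + 1))
    refine VB.congr C ε D D' ((vb_sub C ε D D' hf hD hD' h0 h1 v1
      (vb_add C ε D D' hf hD hD' h0 h1 v2 v3)).mono' C ε D D' ?_) fun g z x => ?_
    · rw [abs_of_nonneg hm, abs_of_nonneg hlev0, ← mul_sum]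
      have e1 : mass k * ∑ i ∈ Icc (j + 1) k, W * (E i + E j + T)
          = W * (mass k * ∑ i ∈ Icc (j + 1) k, E i + mass k * ((Icc (j + 1) k).card : ℝ) * (E j + T)) := by
        rw [← mul_sum, show (∑ i ∈ Icc (j + 1) k, (E i + E j + T))
          = ∑ i ∈ Icc (j + 1) k, E i + ((Icc (j + 1) k).card : ℝ) * (E j + T) by
            simp only [sum_add_distrib, sum_const, nsmul_eq_mul]; ring]
        ring
      rw [e1]
      nlinarith [mul_le_mul_of_nonneg_left hsumE hW0,
        mul_le_mul_of_nonneg_left (mul_le_mul_of_nonneg_right hcard (add_nonneg (hE0 j) hT0)) hW0,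
        mul_le_mul_of_nonneg_right hlev1 (mul_nonneg hW0 (add_nonneg (add_nonneg (hE0 j) (hE0 j)) hT0))]
    · simp only [obs, slot, corr, heq, ← mul_sum, ← sum_mul]
      ring
  have vQ := vb_sum C ε D D' hf hD hD' h0 h1 (Icc (0 + 1) k) (fun _ => mass k) fun i _ => o3 i
  have vQ0 := vb_smul C ε D D' hf hD hD' h0 h1 (o3 0) (lev k (0 + 1))
  have vP := o2 ha hab ha' hab' j hj
  refine (VB.congr C ε D D' (ψ := fun g => S0 (U g)) ((vb_add C ε D D' hf hD hD' h0 h1
    (vb_add C ε D D' hf hD hD' h0 h1 (side ha hab ha' hab') (side ha' hab' ha hab))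
    (vb_sub C ε D D' hf hD hD' h0 h1 vP (vb_add C ε D D' hf hD hD' h0 h1 vQ vQ0))).mono' C ε D D' ?_)
    fun g z x => ?_).le
  · have hq : mass k * ∑ i ∈ Icc (0 + 1) k, W * (E (min i j) + T)
        ≤ W * (T + E j + T) := by
      have h1 : ∑ i ∈ Icc (0 + 1) k, (E (min i j) + T)
          ≤ ∑ i ∈ Icc (0 + 1) k, E i + ((Icc (0 + 1) k).card : ℝ) * (E j + T) := by
        rw [← nsmul_eq_mul, ← sum_const, ← sum_add_distrib]
        refine sum_le_sum fun i _ => ?_
        rcases le_total i j with h | h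
        · rw [min_eq_left h]; linarith [hE0 j]
        · rw [min_eq_right h]; linarith [hE0 i]
      have h2 : mass k * ∑ i ∈ Icc (0 + 1) k, E i ≤ T :=
        mass_berr_le C ε D D' (Icc_subset_Icc_left (Nat.zero_le _))
      rw [← mul_sum]
      nlinarith [mul_le_mul_of_nonneg_left (mul_le_mul_of_nonneg_left h1 hm) hW0,
        mul_le_mul_of_nonneg_left h2 hW0,
        mul_le_mul_of_nonneg_left (mul_le_mul_of_nonneg_right hcard0 (add_nonneg (hE0 j) hT0)) hW0]
    have hl : lev k (0 + 1) * (W * (E (min 0 j) + T)) ≤ W * (T + T) := by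
      have : lev k (0 + 1) = mass k := by simp [lev, mass]
      rw [this, Nat.zero_min]
      nlinarith [mul_le_mul_of_nonneg_left (berr_zero_le (μ0 := μ0) C ε D D') hW0,
        mul_le_mul_of_nonneg_left (mul_le_of_le_one_left hT0 (mass_le_one (k := k))) hW0]
    rw [abs_of_nonneg hm, abs_of_nonneg (lev_nonneg (k := k) (0 + 1)), ← mul_sum]
    nlinarith [mul_nonneg hW0 (hE0 j), mul_nonneg hW0 hT0]
  · simp only [obs, hA, hA', hQ, hS0, hP2, corr, ← mul_sum, ← sum_mul]
    ring

end Vale.Agent.P166.Rsb.Slot
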