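import Vale.Agent.P157.Rsb.PatEnds
import Vale.Agent.P166.Rsb.Slot.Variation

/-!
# P166: the ends of the path that replaces a row by Gaussian fields

A system is a Hamiltonian `H` on levels with coordinates `ι` and leaves `X`. The kernel is a monotone
sequence `q` with diagonal `Q`.
-/

open MeasureTheory ProbabilityTheory Real Finset
open Vale.Agent.P157.Rsb
open Vale.Agent.P157.Rsb.Slot

namespace Vale.Agent.P166.Rsb.Slot

/-- A monotone kernel with diagonal `Q`. -/
def IsKer (k : ℕ) (q : ℕ → ℝ) (Q : ℝ) : Prop := q 0 = 0 ∧ (∀ j < k, q j ≤ q (j + 1)) ∧ q k ≤ Q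

/-- The increments of a kernel. -/
def kinc (k : ℕ) (q : ℕ → ℝ) (Q : ℝ) (l : ℕ) : ℝ :=
  if l ≤ k then q l - q (l - 1) else if l = k + 1 then Q - q k else 0

/-- A centred field with kernel `q` and diagonal `Q`. -/
noncomputable def kerFld (k : ℕ) (q : ℕ → ℝ) (Q : ℝ) (z : Fin k → ℝ) (t : ℝ) : ℝ :=
  ∑ l : Fin k, √(q (l + 1) - q l) * z l + √(Q - q k) * t

/-- The recursion of a potential of such a field. -/
noncomputable def phiQ (k : ℕ) (f : ℝ → ℝ) (q : ℕ → ℝ) (Q : ℝ) : ℝ :=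
  val (gaussianReal 0 1) (gaussianReal 0 1) (fun z t => f (kerFld k q Q z t)) 0 fun _ => 0

/-- The mean square at level `j` of an observable of the field. -/
noncomputable def gamQ (k : ℕ) (f e : ℝ → ℝ) (q : ℕ → ℝ) (Q : ℝ) (j : ℕ) : ℝ :=
  cnd (gaussianReal 0 1) (gaussianReal 0 1) (fun z t => f (kerFld k q Q z t))
    (fun z _ => cnd (gaussianReal 0 1) (gaussianReal 0 1) (fun z t => f (kerFld k q Q z t))
      (fun z t => e (kerFld k q Q z t)) j z ^ 2) 0 fun _ => 0

section Kernel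

variable {k : ℕ} {q : ℕ → ℝ} {Q : ℝ}

theorem kinc_nonneg (hq : IsKer k q Q) (l : ℕ) : 0 ≤ kinc k q Q l := by
  unfold kinc
  split_ifs with h h'
  · rcases Nat.eq_zero_or_pos l with h0 | h0
    · subst h0; simp
    · have := hq.2.1 (l - 1) (by omega)
      rw [show l - 1 + 1 = l by omega] at this
      linarith
  · linarith [hq.2.2]
  · exact le_rfl

theorem sum_kinc (hq : IsKer k q Q) {l : ℕ} (hl : l ≤ k) : ∑ a ∈ range l, kinc k q Q (a + 1) = q l := by
  induction l with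
  | zero => simp [hq.1]
  | succ l ih =>
    rw [sum_range_succ, ih (by omega), kinc, if_pos hl, Nat.add_sub_cancel]
    ring

theorem sum_kinc_all (hq : IsKer k q Q) : ∑ a ∈ range (k + 1), kinc k q Q (a + 1) = Q := by
  rw [sum_range_succ, sum_kinc hq le_rfl, kinc, if_neg (by omega), if_pos rfl]
  ring

theorem kerFld_le (q : ℕ → ℝ) (Q : ℝ) : Measurable fun p : (Fin k → ℝ) × ℝ => kerFld k q Q p.1 p.2 := by
  unfold kerFld
  fun_prop

end Kernel

variable {k m : ℕ} {ι X : Type} [Fintype ι] [MeasurableSpace X]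

/-- The old coordinates. -/
def keep (y : ι ⊕ Unit → ℝ) : ι → ℝ := fun i => y (.inl i)

/-- The old coordinates and the new one. -/
def keep2 (y : ι ⊕ Unit → ℝ) : (ι → ℝ) × ℝ := (keep y, y (.inr ()))

theorem keep_tot (z : Fin k → ι ⊕ Unit → ℝ) :
    (gaussSize ι).tot (fun l => keep (z l)) ≤ (gaussSize (ι ⊕ Unit)).tot z :=
  sum_le_sum fun l _ => by
    show ∑ i, |z l (.inl i)| ≤ ∑ i, |z l i|
    rw [Fintype.sum_sum_type (fun i : ι ⊕ Unit => |z l i|)]
    exact le_add_of_nonneg_right (sum_nonneg (f := fun i : Unit => |z l (Sum.inr i)|) fun i _ => abs_nonneg _)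

theorem mp_keep2 : MeasurePreserving (keep2 (ι := ι)) (stdG (ι ⊕ Unit)) ((stdG ι).prod (gaussianReal 0 1)) := by
  have h1 := measurePreserving_sumPiEquivProdPi (fun _ : ι ⊕ Unit => gaussianReal 0 1)
  have h2 : MeasurePreserving (fun y : Unit → ℝ => y ()) (Measure.pi fun _ : Unit => gaussianReal 0 1)
      (gaussianReal 0 1) := measurePreserving_eval (fun _ : Unit => gaussianReal 0 1) ()
  unfold stdG
  exact ((MeasurePreserving.id (Measure.pi fun _ : ι => gaussianReal 0 1)).prod h2).comp h1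

theorem mp_keep : MeasurePreserving (keep (ι := ι)) (stdG (ι ⊕ Unit)) (stdG ι) :=
  (measurePreserving_fst (μ := stdG ι) (ν := gaussianReal 0 1)).comp mp_keep2

/-- A system, a row vector and an offset. -/
structure Sys (k m : ℕ) (ι X : Type) [Fintype ι] [MeasurableSpace X] where
  /-- the Hamiltonian -/
  H : (Fin k → ι → ℝ) → X → ℝ
  H_lin : LinB (gaussSize ι) H
  /-- the vector that multiplies the row -/
  p : X → Fin m → ℝ
  p_meas : Measurable p
  p_bdd : ∃ P, 0 ≤ P ∧ ∀ x i, |p x i| ≤ P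
  /-- the offset of the field -/
  off : X → ℝ
  off_meas : Measurable off
  off_bdd : ∃ O, 0 ≤ O ∧ ∀ x, |off x| ≤ O

namespace Sys

variable (S : Sys k m ι X)

/-- The field at a given row. -/
def rowFld (g : Fin m → ℝ) (x : X) : ℝ := sdot g (S.p x) + S.off x

/-- The system with the potential of a row. -/
def startH (f : ℝ → ℝ) (g : Fin m → ℝ) (z : Fin k → ι → ℝ) (x : X) : ℝ := S.H z x + f (S.rowFld g x)

/-- The field that replaces the row. -/
noncomputable def endFld (q : ℕ → ℝ) (Q : ℝ) (z : Fin k → ι ⊕ Unit → ℝ) (x : X × ℝ) : ℝ :=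
  kerFld k q Q (fun l => z l (.inr ())) x.2 + S.off x.1

/-- The system with the potential of the replacing field. -/
noncomputable def endH (f : ℝ → ℝ) (q : ℕ → ℝ) (Q : ℝ) (z : Fin k → ι ⊕ Unit → ℝ) (x : X × ℝ) : ℝ :=
  S.H (fun l => keep (z l)) x.1 + f (S.endFld q Q z x)

/-- The error of the overlaps at level `l`. -/
noncomputable def kerErr (μ : Measure X) (q : ℕ → ℝ) (l : ℕ) : ℝ :=
  rootPair (stdG ι) μ S.H (fun x y => |sdot (S.p x) (S.p y) - q l|) l fun _ _ => 0

/-- The error of the squared length. -/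
noncomputable def diagErr (μ : Measure X) (Q : ℝ) : ℝ :=
  cnd (stdG ι) μ S.H (fun _ x => |sdot (S.p x) (S.p x) - Q|) 0 fun _ _ => 0

/-- The total error. -/
noncomputable def totK (μ : Measure X) (q : ℕ → ℝ) (Q : ℝ) : ℝ :=
  mass k * ∑ l ∈ Icc 0 k, S.kerErr μ q l + 2 * S.diagErr μ Q

/-- The cascade of the system. -/
noncomputable def cas : Cas k m (ι ⊕ Unit) X where
  i0 := .inr ()
  p := S.p
  p_meas := S.p_meas
  p_bdd := S.p_bdd
  H0 z x := S.H (fun l => keep (z l)) x
  H0_lin := by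
    obtain ⟨A, hA, hb⟩ := S.H_lin.bound
    refine ⟨S.H_lin.meas.comp (f := fun q : (Fin k → ι ⊕ Unit → ℝ) × X => (fun l => keep (q.1 l), q.2))
      ((measurable_pi_lambda _ fun l => mp_keep.measurable.comp
        ((measurable_pi_apply l).comp measurable_fst)).prodMk measurable_snd),
      A, hA, fun z x => (hb _ x).trans ?_⟩
    exact mul_le_mul_of_nonneg_left (by linarith [keep_tot z]) hA
  H0_indep z z' h := by
    have : (fun l => keep (z l)) = fun l => keep (z' l) :=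
      funext₂ fun l i => h l (.inl i) Sum.inl_ne_inr
    simp only [this]
  off := S.off
  off_meas := S.off_meas
  off_bdd := S.off_bdd

theorem rowFld_meas (g : Fin m → ℝ) : Measurable (S.rowFld g) :=
  (Finset.measurable_sum _ fun i _ => ((measurable_pi_apply i).comp S.p_meas).const_mul _).add S.off_meas

theorem startH_lin {f : ℝ → ℝ} {R B : ℝ} (hf : Cpt R B f) (g : Fin m → ℝ) :
    LinB (gaussSize ι) (S.startH f g) :=
  linB_ham1 S.H_lin hf (U := fun _ x => S.rowFld g x) ((S.rowFld_meas g).comp measurable_snd)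

theorem path_start (q : ℕ → ℝ) (Q : ℝ) (g : Fin m → ℝ) :
    pU S.cas 1 (fun _ => 0) (kinc k q Q) 0 g = fun _ x => S.rowFld g x.1 := by
  funext z x
  simp [pU, Cas.fld, Cas.lin, amp_zero, rowFld, cas]

theorem path_end (q : ℕ → ℝ) (Q : ℝ) (g : Fin m → ℝ) :
    pU S.cas 1 (fun _ => 0) (kinc k q Q) (π / 2) g = S.endFld q Q := by
  funext z x
  have hk : ¬ k + 1 ≤ k := by omega
  simp only [pU, Cas.fld, Cas.lin, cas, amp_end, cos_pi_div_two, mul_zero, zero_mul, zero_add, endFld,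
    kerFld, kinc, if_neg hk, if_true]
  congr 2
  refine sum_congr rfl fun l _ => ?_
  rw [if_pos (by omega : (l : ℕ) + 1 ≤ k), Nat.add_sub_cancel]

variable (μ : Measure X) [IsProbabilityMeasure μ]

/-- A system seen inside its cascade. -/
theorem old_sys {H : (Fin k → ι → ℝ) → X → ℝ} (hH : LinB (gaussSize ι) H) (j : ℕ)
    (z : Fin k → ι ⊕ Unit → ℝ) :
    val (stdG (ι ⊕ Unit)) (μ.prod (gaussianReal 0 1)) (fun z x => H (fun l => keep (z l)) x.1) j z
      = val (stdG ι) μ H j (fun l => keep (z l)) ∧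
    ∀ φ, Tame (gaussSize ι) φ →
      cnd (stdG (ι ⊕ Unit)) (μ.prod (gaussianReal 0 1)) (fun z x => H (fun l => keep (z l)) x.1)
          (fun z x => φ (fun l => keep (z l)) x.1) j z
        = cnd (stdG ι) μ H φ j (fun l => keep (z l)) :=
  val_map (H := H) mp_keep (measurePreserving_fst (μ := μ) (ν := gaussianReal 0 1)) hH j z

theorem start_val {f : ℝ → ℝ} {R B : ℝ} (hf : Cpt R B f) (q : ℕ → ℝ) (Q : ℝ) (g : Fin m → ℝ) :
    val (stdG (ι ⊕ Unit)) (μ.prod (gaussianReal 0 1))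
        (ham1 S.cas.base f (pU S.cas 1 (fun _ => 0) (kinc k q Q) 0 g)) 0 (fun _ _ => 0)
      = val (stdG ι) μ (S.startH f g) 0 (fun _ _ => 0) := by
  rw [path_start]
  exact (old_sys μ (S.startH_lin hf g) 0 _).1

theorem end_ham (f : ℝ → ℝ) (q : ℕ → ℝ) (Q : ℝ) (g : Fin m → ℝ) :
    ham1 S.cas.base f (pU S.cas 1 (fun _ => 0) (kinc k q Q) (π / 2) g) = S.endH f q Q := by
  rw [path_end]
  rfl

theorem start_pair {f : ℝ → ℝ} {R B : ℝ} (hf : Cpt R B f) (q : ℕ → ℝ) (Q : ℝ) (g : Fin m → ℝ)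
    {e : ℝ → ℝ} (hem : Measurable e) {Be : ℝ} (heb : ∀ u, |e u| ≤ Be) {a a' : X → ℝ}
    (ha : Measurable a) (ha' : Measurable a') {R0 : ℝ} (hab : ∀ x, |a x| ≤ R0) (hab' : ∀ x, |a' x| ≤ R0)
    (j : ℕ) :
    ecnd μ S.cas f (pU S.cas 1 (fun _ => 0) (kinc k q Q) 0 g) (fun z _ =>
        node (stdG (ι ⊕ Unit)) (μ.prod (gaussianReal 0 1)) S.cas.base f (fun x => a x.1) e
          (pU S.cas 1 (fun _ => 0) (kinc k q Q) 0 g) j z
        * node (stdG (ι ⊕ Unit)) (μ.prod (gaussianReal 0 1)) S.cas.base f (fun x => a' x.1) e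
          (pU S.cas 1 (fun _ => 0) (kinc k q Q) 0 g) j z) 0 (fun _ _ => 0)
      = rootPair (stdG ι) μ (S.startH f g)
          (fun x y => a x * e (S.rowFld g x) * (a' y * e (S.rowFld g y))) j (fun _ _ => 0) := by
  have hL := S.startH_lin hf g
  have hT : ∀ {a : X → ℝ}, Measurable a → (∀ x, |a x| ≤ R0) → Tame (gaussSize ι)
      fun (_ : Fin k → ι → ℝ) x => a x * e (S.rowFld g x) := fun ha hab =>
    Tame.of_bdd ((ha.mul (hem.comp (S.rowFld_meas g))).comp measurable_snd) (B := |R0| * Be) fun _ x => by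
      rw [abs_mul]
      exact mul_le_mul ((hab x).trans (le_abs_self _)) (heb _) (abs_nonneg _) (abs_nonneg _)
  rw [rootPair_mul hL]
  unfold ecnd node
  rw [path_start]
  have hn : ∀ {a : X → ℝ}, Measurable a → (∀ x, |a x| ≤ R0) → ∀ z,
      cnd (stdG (ι ⊕ Unit)) (μ.prod (gaussianReal 0 1)) (ham1 S.cas.base f fun _ x => S.rowFld g x.1)
          (fun _ x => a x.1 * e (S.rowFld g x.1)) j z
        = cnd (stdG ι) μ (S.startH f g) (fun _ x => a x * e (S.rowFld g x)) j (fun l => keep (z l)) :=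
    fun ha hab z => (old_sys μ hL j z).2 _ (hT ha hab)
  simp only [hn ha hab, hn ha' hab']
  exact (old_sys μ hL 0 _).2 (fun z _ => cnd (stdG ι) μ (S.startH f g) (fun _ x => a x * e (S.rowFld g x)) j z
    * cnd (stdG ι) μ (S.startH f g) (fun _ x => a' x * e (S.rowFld g x)) j z)
    ((cnd_tame hL (hT ha hab) j).mul (cnd_tame hL (hT ha' hab') j))

/-- The product of the system and the recursion of the field, seen inside the cascade. -/
theorem split_end {f : ℝ → ℝ} {R B : ℝ} (hf : Cpt R B f) (h0 : ∀ x, S.off x = 0) (q : ℕ → ℝ) (Q : ℝ) (j : ℕ)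
    (z : Fin k → ι ⊕ Unit → ℝ) :
    val (stdG (ι ⊕ Unit)) (μ.prod (gaussianReal 0 1)) (S.endH f q Q) j z
      = val (stdG ι) μ S.H j (fun l => keep (z l))
        + val (gaussianReal 0 1) (gaussianReal 0 1) (fun z t => f (kerFld k q Q z t)) j
            (fun l => z l (.inr ())) ∧
    ∀ φ ψ, Tame (gaussSize ι) φ → Tame lineSize ψ →
      cnd (stdG (ι ⊕ Unit)) (μ.prod (gaussianReal 0 1)) (S.endH f q Q)
          (fun z x => φ (fun l => keep (z l)) x.1 * ψ (fun l => z l (.inr ())) x.2) j z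
        = cnd (stdG ι) μ S.H φ j (fun l => keep (z l))
          * cnd (gaussianReal 0 1) (gaussianReal 0 1) (fun z t => f (kerFld k q Q z t)) ψ j
            (fun l => z l (.inr ())) := by
  have hH := S.H_lin
  have hK : LinB lineSize fun (z : Fin k → ℝ) t => f (kerFld k q Q z t) := by
    have h := linB_ham1 (k := k) (w := lineSize) (H0 := fun (_ : Fin k → ℝ) (_ : ℝ) => (0 : ℝ))
      ⟨measurable_const, 0, le_rfl, fun _ _ => by simp⟩ hf (U := kerFld k q Q) (kerFld_le q Q)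
    have e : (fun (z : Fin k → ℝ) t => f (kerFld k q Q z t))
        = ham1 (fun _ _ => 0) f (kerFld k q Q) := by funext z t; simp [ham1]
    rw [e]; exact h
  set W := prodSize (gaussSize ι) lineSize with hW
  have ht : ∀ z : Fin k → (ι → ℝ) × ℝ,
      W.tot z = (gaussSize ι).tot (fun l => (z l).1) + lineSize.tot (fun l => (z l).2) :=
    fun z => by simp only [Size.tot, hW, prodSize, sum_add_distrib]
  have mh : ∀ {φ : (Fin k → ι → ℝ) → X → ℝ}, Measurable (Function.uncurry φ) →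
      Measurable fun p : (Fin k → (ι → ℝ) × ℝ) × (X × ℝ) => φ (fun l => (p.1 l).1) p.2.1 :=
    fun hφ => hφ.comp (f := fun p : (Fin k → (ι → ℝ) × ℝ) × (X × ℝ) =>
      (fun l => (p.1 l).1, p.2.1)) (by fun_prop)
  have mk : ∀ {ψ : (Fin k → ℝ) → ℝ → ℝ}, Measurable (Function.uncurry ψ) →
      Measurable fun p : (Fin k → (ι → ℝ) × ℝ) × (X × ℝ) => ψ (fun l => (p.1 l).2) p.2.2 :=
    fun hψ => hψ.comp (f := fun p : (Fin k → (ι → ℝ) × ℝ) × (X × ℝ) =>
      (fun l => (p.1 l).2, p.2.2)) (by fun_prop)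
  obtain ⟨A, hA, ha⟩ := hH.bound
  obtain ⟨A', hA', ha'⟩ := hK.bound
  have hsum : LinB W fun z (x : X × ℝ) => S.H (fun l => (z l).1) x.1
      + f (kerFld k q Q (fun l => (z l).2) x.2) := by
    refine ⟨(mh hH.meas).add (mk hK.meas), A + A', by positivity, fun z x => (abs_add_le _ _).trans
      ((add_le_add (ha _ _) (ha' _ _)).trans ?_)⟩
    have t1 := Size.tot_nonneg (gaussSize ι) fun l => (z l).1
    have t2 := Size.tot_nonneg lineSize fun l => (z l).2
    rw [ht]
    nlinarith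
  have hend : S.endH f q Q = fun z (x : X × ℝ) => S.H (fun l => (keep2 (z l)).1) x.1
      + f (kerFld k q Q (fun l => (keep2 (z l)).2) x.2) := by
    funext z x
    simp [endH, endFld, h0, keep2]
  rw [hend]
  have hm := fun j z => val_map (γ' := stdG (ι ⊕ Unit)) (μ' := μ.prod (gaussianReal 0 1))
    mp_keep2 (MeasurePreserving.id (μ.prod (gaussianReal 0 1))) hsum j z
  refine ⟨(hm j z).1.trans (val_prod hH hK j _).1, fun φ ψ hφ hψ => ?_⟩
  refine ((hm j z).2 (fun z x => φ (fun l => (z l).1) x.1 * ψ (fun l => (z l).2) x.2) ?_).trans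
    ((val_prod hH hK j _).2 φ ψ)
  obtain ⟨C, hC, hc⟩ := hφ.bound
  obtain ⟨C', hC', hc'⟩ := hψ.bound
  refine ⟨(mh hφ.meas).mul (mk hψ.meas), max (C + C') (C * C'), le_max_of_le_left (by positivity),
    fun z x => ?_⟩
  have t1 := Size.tot_nonneg (gaussSize ι) fun l => (z l).1
  have t2 := Size.tot_nonneg lineSize fun l => (z l).2
  rw [abs_mul, ht]
  calc _ ≤ C * exp (C * _) * (C' * exp (C' * _)) :=
        mul_le_mul (hc _ _) (hc' _ _) (abs_nonneg _) (by positivity)
    _ = C * C' * exp (C * (gaussSize ι).tot (fun l => (z l).1)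
          + C' * lineSize.tot (fun l => (z l).2)) := by rw [exp_add]; ring
    _ ≤ _ := mul_le_mul (le_max_right _ _) (exp_le_exp.2 (by
        nlinarith [le_max_left (C + C') (C * C')])) (exp_pos _).le (le_max_of_le_left (by positivity))

/-- The averaged product at the end, for a general offset. -/
noncomputable def endPair (f e : ℝ → ℝ) (q : ℕ → ℝ) (Q : ℝ) (a a' : X → ℝ) (j : ℕ) : ℝ :=
  cnd (stdG (ι ⊕ Unit)) (μ.prod (gaussianReal 0 1)) (S.endH f q Q) (fun z _ =>
      cnd (stdG (ι ⊕ Unit)) (μ.prod (gaussianReal 0 1)) (S.endH f q Q)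
          (fun z x => a x.1 * e (S.endFld q Q z x)) j z
        * cnd (stdG (ι ⊕ Unit)) (μ.prod (gaussianReal 0 1)) (S.endH f q Q)
          (fun z x => a' x.1 * e (S.endFld q Q z x)) j z) 0 fun _ _ => 0

theorem end_pair (f e : ℝ → ℝ) (q : ℕ → ℝ) (Q : ℝ) (g : Fin m → ℝ) (a a' : X → ℝ) (j : ℕ) :
    ecnd μ S.cas f (pU S.cas 1 (fun _ => 0) (kinc k q Q) (π / 2) g) (fun z _ =>
        node (stdG (ι ⊕ Unit)) (μ.prod (gaussianReal 0 1)) S.cas.base f (fun x => a x.1) e
          (pU S.cas 1 (fun _ => 0) (kinc k q Q) (π / 2) g) j z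
        * node (stdG (ι ⊕ Unit)) (μ.prod (gaussianReal 0 1)) S.cas.base f (fun x => a' x.1) e
          (pU S.cas 1 (fun _ => 0) (kinc k q Q) (π / 2) g) j z) 0 (fun _ _ => 0)
      = S.endPair μ f e q Q a a' j := by
  unfold ecnd node endPair
  rw [path_end]
  rfl

/-- Without offset the product at the end splits. -/
theorem endPair_zero {f : ℝ → ℝ} {R B : ℝ} (hf : Cpt R B f) (h0 : ∀ x, S.off x = 0) {e : ℝ → ℝ}
    (hem : Measurable e) {Be : ℝ} (heb : ∀ u, |e u| ≤ Be) (q : ℕ → ℝ) (Q : ℝ) {a a' : X → ℝ}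
    (ha : Measurable a) (ha' : Measurable a') {R0 : ℝ} (hab : ∀ x, |a x| ≤ R0) (hab' : ∀ x, |a' x| ≤ R0)
    (j : ℕ) :
    S.endPair μ f e q Q a a' j
      = rootPair (stdG ι) μ S.H (fun x y => a x * a' y) j (fun _ _ => 0) * gamQ k f e q Q j := by
  have hK : LinB lineSize fun (z : Fin k → ℝ) t => f (kerFld k q Q z t) := by
    have h := linB_ham1 (k := k) (w := lineSize) (H0 := fun (_ : Fin k → ℝ) (_ : ℝ) => (0 : ℝ))
      ⟨measurable_const, 0, le_rfl, fun _ _ => by simp⟩ hf (U := kerFld k q Q) (kerFld_le q Q)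
    have e : (fun (z : Fin k → ℝ) t => f (kerFld k q Q z t))
        = ham1 (fun _ _ => 0) f (kerFld k q Q) := by funext z t; simp [ham1]
    rw [e]; exact h
  have hTa : ∀ {a : X → ℝ}, Measurable a → (∀ x, |a x| ≤ R0) →
      Tame (gaussSize ι) fun (_ : Fin k → ι → ℝ) x => a x := fun ha hab =>
    Tame.of_bdd (ha.comp measurable_snd) fun _ x => hab x
  have hTe : Tame lineSize fun (z : Fin k → ℝ) t => e (kerFld k q Q z t) :=
    Tame.of_bdd (hem.comp (kerFld_le q Q)) fun z x => heb _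
  have hfl : ∀ z x, S.endFld q Q z x = kerFld k q Q (fun l => z l (.inr ())) x.2 := fun z x => by
    simp [endFld, h0]
  rw [rootPair_mul S.H_lin]
  unfold endPair gamQ
  simp only [hfl]
  have hn : ∀ {a : X → ℝ}, Measurable a → (∀ x, |a x| ≤ R0) → ∀ z,
      cnd (stdG (ι ⊕ Unit)) (μ.prod (gaussianReal 0 1)) (S.endH f q Q)
          (fun z x => a x.1 * e (kerFld k q Q (fun l => z l (.inr ())) x.2)) j z
        = cnd (stdG ι) μ S.H (fun _ x => a x) j (fun l => keep (z l))
          * cnd (gaussianReal 0 1) (gaussianReal 0 1) (fun z t => f (kerFld k q Q z t))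
            (fun z t => e (kerFld k q Q z t)) j (fun l => z l (.inr ())) :=
    fun {a} ha hab z => (split_end S μ hf h0 q Q j z).2 (fun _ x => a x)
      (fun z t => e (kerFld k q Q z t)) (hTa ha hab) hTe
  simp only [hn ha hab, hn ha' hab']
  have e2 : (fun (z : Fin k → ι ⊕ Unit → ℝ) (_ : X × ℝ) =>
      cnd (stdG ι) μ S.H (fun _ x => a x) j (fun l => keep (z l))
          * cnd (gaussianReal 0 1) (gaussianReal 0 1) (fun z t => f (kerFld k q Q z t))
            (fun z t => e (kerFld k q Q z t)) j (fun l => z l (.inr ()))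
        * (cnd (stdG ι) μ S.H (fun _ x => a' x) j (fun l => keep (z l))
          * cnd (gaussianReal 0 1) (gaussianReal 0 1) (fun z t => f (kerFld k q Q z t))
            (fun z t => e (kerFld k q Q z t)) j (fun l => z l (.inr ()))))
      = fun z _ =>
        cnd (stdG ι) μ S.H (fun _ x => a x) j (fun l => keep (z l))
          * cnd (stdG ι) μ S.H (fun _ x => a' x) j (fun l => keep (z l))
        * cnd (gaussianReal 0 1) (gaussianReal 0 1) (fun z t => f (kerFld k q Q z t))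
            (fun z t => e (kerFld k q Q z t)) j (fun l => z l (.inr ())) ^ 2 := funext₂ fun z _ => by ring
  rw [e2]
  exact (split_end S μ hf h0 q Q 0 _).2
    (fun z _ => cnd (stdG ι) μ S.H (fun _ x => a x) j z * cnd (stdG ι) μ S.H (fun _ x => a' x) j z)
    (fun z _ => cnd (gaussianReal 0 1) (gaussianReal 0 1) (fun z t => f (kerFld k q Q z t))
      (fun z t => e (kerFld k q Q z t)) j z ^ 2)
    ((cnd_tame S.H_lin (hTa ha hab) j).mul (cnd_tame S.H_lin (hTa ha' hab') j))
    (((cnd_tame hK hTe j).mul (cnd_tame hK hTe j)).congr fun z x => (pow_two _).symm)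

theorem abs_sdot_p (S : Sys k m ι X) : ∃ K, ∀ x y, |sdot (S.p x) (S.p y)| ≤ K := by
  obtain ⟨P, hP0, hP⟩ := S.p_bdd
  refine ⟨∑ _i : Fin m, P * P, fun x y => (abs_sum_le_sum_abs _ _).trans (sum_le_sum fun i _ => ?_)⟩
  rw [abs_mul]
  exact mul_le_mul (hP _ _) (hP _ _) (abs_nonneg _) hP0

/-- The overlap errors are measurable and bounded. -/
theorem kerFn_ok (c : ℝ) :
    (Measurable fun p : X × X => |sdot (S.p p.1) (S.p p.2) - c|) ∧
      ∃ K, ∀ x y, |(|sdot (S.p x) (S.p y) - c|)| ≤ K := by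
  obtain ⟨K, hK⟩ := S.abs_sdot_p
  refine ⟨((Finset.measurable_sum _ fun i _ => ((measurable_pi_apply i).comp (S.p_meas.comp measurable_fst)).mul
      ((measurable_pi_apply i).comp (S.p_meas.comp measurable_snd))).sub_const _).abs, K + |c|, fun x y => ?_⟩
  rw [abs_abs]
  exact (abs_sub _ _).trans (add_le_add (hK x y) le_rfl)

/-- The inner conditional error as an observable. -/
noncomputable def kerInner (q : ℕ → ℝ) (l : ℕ) (z : Fin k → ι → ℝ) (x : X) : ℝ :=
  cnd (stdG ι) μ S.H (fun _ y => |sdot (S.p x) (S.p y) - q l|) l z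

theorem kerInner_tame (q : ℕ → ℝ) (l : ℕ) : Tame (gaussSize ι) (S.kerInner μ q l) := by
  have hL := S.H_lin
  obtain ⟨hm, K, hK⟩ := S.kerFn_ok (q l)
  have hH : Measurable fun p : (X × (Fin k → ι → ℝ)) × X => S.H p.1.2 p.2 :=
    hL.meas.comp (f := fun p : (X × (Fin k → ι → ℝ)) × X => (p.1.2, p.2)) (by fun_prop)
  have hφ : Measurable fun p : (X × (Fin k → ι → ℝ)) × X => |sdot (S.p p.1.1) (S.p p.2) - q l| :=
    hm.comp (f := fun p : (X × (Fin k → ι → ℝ)) × X => (p.1.1, p.2)) (by fun_prop)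
  have h := cnd_measurable_param (G := X) (γ := stdG ι) (μ := μ) (H := fun _ => S.H)
    (φ := fun x _ y => |sdot (S.p x) (S.p y) - q l|) hH hφ l
  exact Tame.of_bdd (h.comp measurable_swap) fun z x =>
    cnd_abs_le (φ := fun _ y => |sdot (S.p x) (S.p y) - q l|) hL
      (hm.comp (f := fun p : (Fin k → ι → ℝ) × X => (x, p.2)) (by fun_prop)) (fun _ y => hK x y) l z

/-- The error of the cascade at a level is the error of the system. -/
theorem berr_eq {q : ℕ → ℝ} {Q : ℝ} (hq : IsKer k q Q) {l : ℕ} (hl : l ≤ k) :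
    berr μ S.cas 1 (fun _ => 0) (kinc k q Q) l = S.kerErr μ q l := by
  have hL := S.H_lin
  obtain ⟨hm, K, hK⟩ := S.kerFn_ok (q l)
  have hk : ∀ x y, |kq S.cas 1 (fun _ => 0) (kinc k q Q) l x y| = |sdot (S.p x) (S.p y) - q l| :=
    fun x y => by
      simp only [kq, sub_zero, sum_kinc hq hl, one_pow, one_mul]
      exact abs_sub_comm _ _
  have hT : ∀ x, Tame (gaussSize ι) fun (_ : Fin k → ι → ℝ) y => |sdot (S.p x) (S.p y) - q l| := fun x =>
    Tame.of_bdd (hm.comp (f := fun p : (Fin k → ι → ℝ) × X => (x, p.2)) (by fun_prop)) fun _ y => hK x y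
  have hp : bpair μ S.cas 1 (fun _ => 0) (kinc k q Q) l
      = fun z x => S.kerInner μ q l (fun i => keep (z i)) x.1 := by
    funext z x
    unfold bpair kerInner
    simp only [hk]
    exact (old_sys μ hL l z).2 _ (hT x.1)
  unfold kerErr berr
  rw [rootPair_eq hL, hp]
  exact (old_sys μ hL 0 (fun _ _ => 0)).2 (S.kerInner μ q l) (S.kerInner_tame μ q l)

/-- The error of the diagonal is the error of the system. -/
theorem derr_eq {q : ℕ → ℝ} {Q : ℝ} (hq : IsKer k q Q) :
    derr μ S.cas 1 (fun _ => 0) (kinc k q Q) = S.diagErr μ Q := by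
  have hL := S.H_lin
  obtain ⟨hm, K, hK⟩ := S.kerFn_ok Q
  have hd : ∀ x, |dd S.cas 1 (fun _ => 0) (kinc k q Q) x| = |sdot (S.p x) (S.p x) - Q| := fun x => by
    simp only [dd, sub_zero, sum_kinc_all hq, one_pow, one_mul]
    exact abs_sub_comm _ _
  set φ : (Fin k → ι → ℝ) → X → ℝ := fun _ x => |sdot (S.p x) (S.p x) - Q| with hφ
  have hT : Tame (gaussSize ι) φ :=
    Tame.of_bdd (hm.comp (f := fun p : (Fin k → ι → ℝ) × X => (p.2, p.2)) (by fun_prop)) fun _ x => hK x x
  unfold derr diagErr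
  rw [show (fun (_ : Fin k → ι ⊕ Unit → ℝ) (x : X × ℝ) => |dd S.cas 1 (fun _ => 0) (kinc k q Q) x.1|)
    = fun z x => φ (fun i => keep (z i)) x.1 from funext₂ fun z x => hd x.1]
  exact (old_sys μ hL 0 (fun _ _ => 0)).2 φ hT

/-- The total error of the cascade is the error of the system. -/
theorem terr_eq {q : ℕ → ℝ} {Q : ℝ} (hq : IsKer k q Q) :
    terr μ S.cas 1 (fun _ => 0) (kinc k q Q) = S.totK μ q Q := by
  unfold terr totK
  rw [S.derr_eq μ hq, sum_congr rfl fun l hl => S.berr_eq μ hq (mem_Icc.1 hl).2]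

end Sys

end Vale.Agent.P166.Rsb.Slot
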