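import Vale.Agent.P166.Rsb.Slot.Ends

/-!
# P166: replacing one row by Gaussian fields

The mean over a row of a value, or of a product of two conditional expectations, differs from its
counterpart with a field of kernel `q` by a multiple of the error of the kernel in the system.
-/

open MeasureTheory ProbabilityTheory Real Finset
open Vale.Agent.P157.Rsb
open Vale.Agent.P157.Rsb.Slot

namespace Vale.Agent.P166.Rsb.Slot

/-- A bounded observable with a first derivative of compact support and twice differentiable. -/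
def GoodObs (e : ℝ → ℝ) : Prop := ContDiff ℝ 2 e ∧ HasCompactSupport (deriv e)

theorem cpt_of {R B : ℝ} {f : ℝ → ℝ} (h : Cpt R B f) {R' B' : ℝ} (hR : R ≤ R') (hB : B ≤ B') :
    Cpt R' B' f :=
  ⟨h.meas, fun u => (h.bound u).trans hB, fun u hu => h.zero u (hR.trans_lt hu)⟩

theorem exists_cpt {h : ℝ → ℝ} (hc : Continuous h) (hh : HasCompactSupport h) : ∃ R B, Cpt R B h := by
  obtain ⟨R, hR⟩ := hh.isCompact.isBounded.subset_closedBall (0 : ℝ)
  obtain ⟨B, hB⟩ := hh.exists_bound_of_continuous hc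
  refine ⟨R, B, hc.measurable, fun u => hB u, fun u hu => ?_⟩
  apply image_eq_zero_of_notMem_tsupport
  intro hm
  have := hR hm
  simp only [Metric.mem_closedBall, dist_zero_right, Real.norm_eq_abs] at this
  linarith

variable {k m : ℕ} {ι X : Type} [Fintype ι] [MeasurableSpace X]

namespace Sys

variable (S : Sys k m ι X) (μ : Measure X) [IsProbabilityMeasure μ]

theorem val_bound {f f1 f2 f3 : ℝ → ℝ} {R B : ℝ} (hP : Pot R B f f1 f2 f3) {q : ℕ → ℝ} {Q : ℝ}
    (hq : IsKer k q Q) :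
    |∫ g, val (stdG ι) μ (S.startH f g) 0 (fun _ _ => 0) ∂stdG (Fin m)
        - val (stdG (ι ⊕ Unit)) (μ.prod (gaussianReal 0 1)) (S.endH f q Q) 0 (fun _ _ => 0)|
      ≤ 2 * (B * exp (4 * B) * B) * S.totK μ q Q := by
  classical
  have h := interp_val (μ0 := μ) S.cas 1 (fun _ => 0) (kinc k q Q) hP (fun _ => le_rfl) (kinc_nonneg hq)
  have e1 : pVal μ S.cas 1 (fun _ => 0) (kinc k q Q) f (π / 2)
      = val (stdG (ι ⊕ Unit)) (μ.prod (gaussianReal 0 1)) (S.endH f q Q) 0 (fun _ _ => 0) := by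
    unfold pVal
    simp only [S.end_ham f q Q, integral_const, probReal_univ, one_smul]
  have e0 : pVal μ S.cas 1 (fun _ => 0) (kinc k q Q) f 0
      = ∫ g, val (stdG ι) μ (S.startH f g) 0 (fun _ _ => 0) ∂stdG (Fin m) := by
    unfold pVal
    exact integral_congr_ae (ae_of_all _ fun g => S.start_val μ hP.hf q Q g)
  rw [e1, e0, abs_sub_comm, S.terr_eq μ hq] at h
  exact h.trans (le_of_eq (by ring))

theorem pair_bound {f f1 f2 f3 : ℝ → ℝ} {R B : ℝ} (hP : Pot R B f f1 f2 f3) {e e' : ℝ → ℝ}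
    (he : Obs R B e e') {gh gh' : ℝ → ℝ} (hg : Cpt R B gh) (hg' : Cpt R B gh')
    (hgd : ∀ u, HasDerivAt gh (gh' u) u) (heq : ∀ u, e' u + e u * f1 u = gh u) {q : ℕ → ℝ} {Q : ℝ}
    (hq : IsKer k q Q) {a a' : X → ℝ} (ha : Measurable a) (ha' : Measurable a') {R0 : ℝ}
    (hab : ∀ x, |a x| ≤ R0) (hab' : ∀ x, |a' x| ≤ R0) {j : ℕ} (hj : j ≤ k) :
    |∫ g, rootPair (stdG ι) μ (S.startH f g)
          (fun x y => a x * e (S.rowFld g x) * (a' y * e (S.rowFld g y))) j (fun _ _ => 0) ∂stdG (Fin m)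
        - S.endPair μ f e q Q a a' j|
      ≤ 2 * (16 * (54 * exp (4 * B) * B ^ 7)) * R0 ^ 2 * (S.kerErr μ q j + S.totK μ q Q) := by
  classical
  have h := interp_pair (μ0 := μ) S.cas 1 (fun _ => 0) (kinc k q Q) hP (fun _ => le_rfl) (kinc_nonneg hq)
    he hg hg' hgd heq ha ha' hab hab' hj
  have e1 : pPair μ S.cas 1 (fun _ => 0) (kinc k q Q) f a a' e j (π / 2) = S.endPair μ f e q Q a a' j := by
    unfold pPair
    simp only [S.end_pair μ f e q Q, integral_const, probReal_univ, one_smul]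
  have e0 : pPair μ S.cas 1 (fun _ => 0) (kinc k q Q) f a a' e j 0
      = ∫ g, rootPair (stdG ι) μ (S.startH f g)
          (fun x y => a x * e (S.rowFld g x) * (a' y * e (S.rowFld g y))) j (fun _ _ => 0)
          ∂stdG (Fin m) := by
    unfold pPair
    exact integral_congr_ae (ae_of_all _ fun g =>
      S.start_pair μ hP.hf q Q g he.meas he.bound ha ha' hab hab' j)
  rw [e1, e0, abs_sub_comm, S.berr_eq μ hq hj, S.terr_eq μ hq] at h
  exact h.trans (le_of_eq (by ring))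

/-- Without offset the end value splits. -/
theorem endVal_zero {f : ℝ → ℝ} {R B : ℝ} (hf : Cpt R B f) (h0 : ∀ x, S.off x = 0) (q : ℕ → ℝ) (Q : ℝ) :
    val (stdG (ι ⊕ Unit)) (μ.prod (gaussianReal 0 1)) (S.endH f q Q) 0 (fun _ _ => 0)
      = val (stdG ι) μ S.H 0 (fun _ _ => 0) + phiQ k f q Q :=
  (S.split_end μ hf h0 q Q 0 _).1

end Sys

/-- Replacing a row in the value at the root. -/
theorem tilt_val {f : ℝ → ℝ} (hf : Good f) :
    ∃ C, 0 ≤ C ∧ ∀ (k m : ℕ) (ι X : Type) (_ : Fintype ι) (_ : MeasurableSpace X) (S : Sys k m ι X)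
      (μ : Measure X), IsProbabilityMeasure μ → ∀ (q : ℕ → ℝ) (Q : ℝ), IsKer k q Q →
      |∫ g, val (stdG ι) μ (S.startH f g) 0 (fun _ _ => 0) ∂stdG (Fin m)
          - val (stdG (ι ⊕ Unit)) (μ.prod (gaussianReal 0 1)) (S.endH f q Q) 0 (fun _ _ => 0)|
        ≤ C * S.totK μ q Q := by
  obtain ⟨R, B, hP⟩ := exists_pot hf.1 hf.2
  have hB : 0 ≤ B := zero_le_one.trans hP.one_le
  exact ⟨_, by positivity, fun k m ι X _ _ S μ hμ q Q hq => S.val_bound μ hP hq⟩

/-- Replacing a row in a product of two conditional expectations. -/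
theorem tilt_pair {f e : ℝ → ℝ} (hf : Good f) (he : GoodObs e) {Be : ℝ} (heb : ∀ u, |e u| ≤ Be) :
    ∃ C, 0 ≤ C ∧ ∀ (k m : ℕ) (ι X : Type) (_ : Fintype ι) (_ : MeasurableSpace X) (S : Sys k m ι X)
      (μ : Measure X), IsProbabilityMeasure μ → ∀ (q : ℕ → ℝ) (Q : ℝ), IsKer k q Q →
      ∀ (a a' : X → ℝ) (R0 : ℝ), Measurable a → Measurable a' → (∀ x, |a x| ≤ R0) → (∀ x, |a' x| ≤ R0) →
      ∀ j ≤ k,
      |∫ g, rootPair (stdG ι) μ (S.startH f g)
            (fun x y => a x * e (S.rowFld g x) * (a' y * e (S.rowFld g y))) j (fun _ _ => 0) ∂stdG (Fin m)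
          - S.endPair μ f e q Q a a' j|
        ≤ C * R0 ^ 2 * (S.kerErr μ q j + S.totK μ q Q) := by
  obtain ⟨R0, B0, hP⟩ := exists_pot hf.1 hf.2
  have e1 : ContDiff ℝ 1 (deriv e) := by simpa using he.1.iterate_deriv' 1 1
  have dd : ∀ u, HasDerivAt e (deriv e u) u := fun u => (he.1.differentiable (by norm_num) u).hasDerivAt
  have dd2 : ∀ u, HasDerivAt (deriv e) (deriv (deriv e) u) u := fun u =>
    (e1.differentiable (by norm_num) u).hasDerivAt
  obtain ⟨R1, B1, c1⟩ := exists_cpt e1.continuous he.2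
  obtain ⟨R2, B2, c2⟩ := exists_cpt (e1.continuous_deriv le_rfl) he.2.deriv
  set R := max R0 (max R1 R2) with hR
  set B3 := max B0 (max |Be| (max |B1| |B2|)) with hB3
  have h31 : 1 ≤ B3 := hP.one_le.trans (le_max_left _ _)
  set B := 3 * B3 ^ 2 with hB
  have h3 : B3 ≤ B := by rw [hB]; nlinarith
  have hB0 : 0 ≤ B := by linarith
  have l0 : B0 ≤ B3 := le_max_left _ _
  have le' : |Be| ≤ B3 := (le_max_left _ _).trans (le_max_right _ _)
  have l1 : B1 ≤ B3 := (le_abs_self _).trans (((le_max_left _ _).trans (le_max_right _ _)).trans (le_max_right _ _))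
  have l2 : B2 ≤ B3 := (le_abs_self _).trans (((le_max_right _ _).trans (le_max_right _ _)).trans (le_max_right _ _))
  have r0 : R0 ≤ R := le_max_left _ _
  have r1 : R1 ≤ R := (le_max_left _ _).trans (le_max_right _ _)
  have r2 : R2 ≤ R := (le_max_right _ _).trans (le_max_right _ _)
  have f1c := cpt_of hP.hf1 r0 l0
  have f2c := cpt_of hP.hf2 r0 l0
  have d1c := cpt_of c1 r1 l1
  have d2c := cpt_of c2 r2 l2
  have hP' : Pot R B f (deriv f) (deriv (deriv f)) (deriv (deriv (deriv f))) :=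
    ⟨cpt_of hP.hf r0 (l0.trans h3), cpt_of hP.hf1 r0 (l0.trans h3), cpt_of hP.hf2 r0 (l0.trans h3),
      cpt_of hP.hf3 r0 (l0.trans h3), h31.trans h3, hP.d1, hP.d2, hP.d3⟩
  have heb' : ∀ u, |e u| ≤ B3 := fun u => (heb u).trans ((le_abs_self _).trans le')
  refine ⟨2 * (16 * (54 * exp (4 * B) * B ^ 7)), by positivity,
    fun k m ι X _ _ S μ hμ q Q hq a a' R0' ha ha' hab hab' j hj => ?_⟩
  refine S.pair_bound μ hP' (e' := deriv e)
    ⟨he.1.continuous.measurable, fun u => (heb' u).trans h3, dd, cpt_of c1 r1 (l1.trans h3)⟩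
    (gh := fun u => deriv e u + e u * deriv f u)
    (gh' := fun u => deriv (deriv e) u + (deriv e u * deriv f u + e u * deriv (deriv f) u))
    ⟨d1c.meas.add (he.1.continuous.measurable.mul f1c.meas), fun u => ?_, fun u h => ?_⟩
    ⟨d2c.meas.add ((d1c.meas.mul f1c.meas).add (he.1.continuous.measurable.mul f2c.meas)),
      fun u => ?_, fun u h => ?_⟩
    (fun u => (dd2 u).add ((dd u).mul (hP.d2 u))) (fun u => rfl) hq ha ha' hab hab' hj
  · refine (abs_add_le _ _).trans ?_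
    rw [abs_mul, hB]
    nlinarith [d1c.bound u, mul_le_mul (heb' u) (f1c.bound u) (abs_nonneg _) (by linarith : (0:ℝ) ≤ B3)]
  · simp [d1c.zero u h, f1c.zero u h]
  · refine (abs_add_le _ _).trans ((add_le_add le_rfl (abs_add_le _ _)).trans ?_)
    rw [abs_mul, abs_mul, hB]
    nlinarith [d2c.bound u, mul_le_mul (d1c.bound u) (f1c.bound u) (abs_nonneg _) (by linarith : (0:ℝ) ≤ B3),
        mul_le_mul (heb' u) (f2c.bound u) (abs_nonneg _) (by linarith : (0:ℝ) ≤ B3)]
  · simp [d2c.zero u h, f1c.zero u h, f2c.zero u h]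

end Vale.Agent.P166.Rsb.Slot
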