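import Vale.Agent.P157.Rsb.Variation

/-!
# P166: cascades with an offset

The interpolation of `Vale.Agent.P157.Rsb.Slot`, for a field with an offset that depends on the leaf
and a row whose squared length is only close to the total variance.
-/

open MeasureTheory ProbabilityTheory Real Finset
open Vale.Agent.P157.Rsb
open Vale.Agent.P157.Rsb.Slot

namespace Vale.Agent.P166.Rsb.Slot

/-- The data of a cascade. -/
structure Cas (k m : ℕ) (ι X0 : Type) [Fintype ι] [MeasurableSpace X0] where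
  /-- the distinguished coordinate -/
  i0 : ι
  /-- the vector that multiplies the row -/
  p : X0 → Fin m → ℝ
  p_meas : Measurable p
  p_bdd : ∃ P, 0 ≤ P ∧ ∀ x i, |p x i| ≤ P
  /-- the base Hamiltonian -/
  H0 : (Fin k → ι → ℝ) → X0 → ℝ
  H0_lin : LinB (gaussSize ι) H0
  H0_indep : ∀ z z', (∀ l i, i ≠ i0 → z l i = z' l i) → H0 z = H0 z'
  /-- the offset of the field -/
  off : X0 → ℝ
  off_meas : Measurable off
  off_bdd : ∃ O, 0 ≤ O ∧ ∀ x, |off x| ≤ O

namespace Cas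

variable {k m : ℕ} {ι X0 : Type} [Fintype ι] [MeasurableSpace X0]

/-- The base Hamiltonian on the extended leaf space. -/
def base (C : Cas k m ι X0) : (Fin k → ι → ℝ) → X0 × ℝ → ℝ := fun z x => C.H0 z x.1

/-- The linear part of the field. -/
def lin (C : Cas k m ι X0) (ev : ℝ) (cv : ℕ → ℝ) (g : Fin m → ℝ) (z : Fin k → ι → ℝ) (x : X0 × ℝ) :
    ℝ :=
  ev * sdot g (C.p x.1) + ∑ l : Fin k, cv (l + 1) * z l C.i0 + cv (k + 1) * x.2

/-- The field. -/
def fld (C : Cas k m ι X0) (ev : ℝ) (cv : ℕ → ℝ) (g : Fin m → ℝ) (z : Fin k → ι → ℝ) (x : X0 × ℝ) :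
    ℝ :=
  C.lin ev cv g z x + C.off x.1

/-- The kernel between two leaves that branch after level `l`. -/
def ker (C : Cas k m ι X0) (ev ev' : ℝ) (cv cv' : ℕ → ℝ) (l : ℕ) (x y : X0) : ℝ :=
  ev' * ev * sdot (C.p x) (C.p y) + ∑ a ∈ range l, cv' (a + 1) * cv (a + 1)

variable (C : Cas k m ι X0)

theorem base_lin : LinB (gaussSize ι) C.base := by
  obtain ⟨A, hA, hb⟩ := C.H0_lin.bound
  exact ⟨C.H0_lin.meas.comp (f := fun q : (Fin k → ι → ℝ) × (X0 × ℝ) => (q.1, q.2.1))
    (measurable_fst.prodMk (measurable_fst.comp measurable_snd)), A, hA, fun z x => hb z x.1⟩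

theorem p_coord (i : Fin m) : Measurable fun x => C.p x i := (measurable_pi_apply i).comp C.p_meas

theorem lin_jm (ev : ℝ) (cv : ℕ → ℝ) : JM (C.lin ev cv) := by
  have hg : Measurable fun q : ((Fin m → ℝ) × (Fin k → ι → ℝ)) × (X0 × ℝ) =>
      sdot q.1.1 (C.p q.2.1) :=
    Finset.measurable_sum _ fun i _ => ((measurable_pi_apply i).comp
      (measurable_fst.comp measurable_fst)).mul ((C.p_coord i).comp (measurable_fst.comp measurable_snd))
  have hz : ∀ l : Fin k, Measurable fun q : ((Fin m → ℝ) × (Fin k → ι → ℝ)) × (X0 × ℝ) =>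
      cv (l + 1) * q.1.2 l C.i0 := fun l =>
    Measurable.const_mul (by fun_prop) _
  exact ((hg.const_mul ev).add (Finset.measurable_sum _ fun l _ => hz l)).add
    ((measurable_snd.comp measurable_snd).const_mul _)

theorem fld_jm (ev : ℝ) (cv : ℕ → ℝ) : JM (C.fld ev cv) :=
  (C.lin_jm ev cv).add (C.off_meas.comp (measurable_fst.comp measurable_snd))

theorem abs_coord_le (z : Fin k → ι → ℝ) (a : Fin k) (i : ι) : |z a i| ≤ (gaussSize ι).tot z :=
  (single_le_sum (f := fun b => |z a b|) (fun _ _ => abs_nonneg _) (mem_univ i)).trans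
    (single_le_sum (f := fun l => ∑ b, |z l b|) (fun _ _ => by positivity) (mem_univ a))

theorem tame_coord (a : Fin k) (i : ι) :
    Tame (gaussSize ι) fun (z : Fin k → ι → ℝ) (_ : X0 × ℝ) => z a i := by
  refine ⟨(show Measurable fun q : (Fin k → ι → ℝ) × (X0 × ℝ) => q.1 a i by fun_prop), 1, zero_le_one,
    fun z _ => (abs_coord_le z a i).trans ?_⟩
  rw [one_mul, one_mul]
  linarith [add_one_le_exp ((gaussSize ι).tot z)]

/-- The part of the field without the auxiliary leaf variable is at most linear. -/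
theorem fld_rest_le (ev : ℝ) (cv : ℕ → ℝ) (g : Fin m → ℝ) : ∃ A, 0 ≤ A ∧ ∀ z x,
    |C.fld ev cv g z x - cv (k + 1) * x.2| ≤ A * (1 + (gaussSize ι).tot z) := by
  obtain ⟨P, hP0, hP⟩ := C.p_bdd
  obtain ⟨O, hO0, hO⟩ := C.off_bdd
  refine ⟨|ev| * (∑ i, |g i| * P) + ∑ l : Fin k, |cv (l + 1)| + O, by positivity, fun z x => ?_⟩
  have ht : 0 ≤ (gaussSize ι).tot z := Size.tot_nonneg _ z
  have h1 : |ev * sdot g (C.p x.1)| ≤ |ev| * ∑ i, |g i| * P := by
    rw [abs_mul]
    refine mul_le_mul_of_nonneg_left ((abs_sum_le_sum_abs _ _).trans (sum_le_sum fun i _ => ?_))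
      (abs_nonneg _)
    rw [abs_mul]
    exact mul_le_mul_of_nonneg_left (hP _ _) (abs_nonneg _)
  have h2 : |∑ l : Fin k, cv (l + 1) * z l C.i0|
      ≤ (∑ l : Fin k, |cv (l + 1)|) * (gaussSize ι).tot z := by
    refine (abs_sum_le_sum_abs _ _).trans ?_
    rw [sum_mul]
    refine sum_le_sum fun l _ => ?_
    rw [abs_mul]
    exact mul_le_mul_of_nonneg_left (abs_coord_le z l _) (abs_nonneg _)
  rw [show C.fld ev cv g z x - cv (k + 1) * x.2
    = ev * sdot g (C.p x.1) + (∑ l : Fin k, cv (l + 1) * z l C.i0) + C.off x.1 by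
      simp only [fld, lin]; ring]
  refine (abs_add_three _ _ _).trans ((add_le_add (add_le_add h1 h2) (hO x.1)).trans ?_)
  nlinarith [mul_nonneg ((abs_nonneg _).trans h1) ht, mul_nonneg hO0 ht,
    show (0 : ℝ) ≤ ∑ l : Fin k, |cv (l + 1)| from sum_nonneg fun _ _ => abs_nonneg _]

theorem leaf_le {ev : ℝ} {cv : ℕ → ℝ} (hc : cv (k + 1) ≠ 0) (g : Fin m → ℝ) (R : ℝ) :
    ∃ A, 0 ≤ A ∧ ∀ z x, |C.fld ev cv g z x| ≤ R → |x.2| ≤ A * (1 + (gaussSize ι).tot z) := by
  obtain ⟨A, hA, hb⟩ := C.fld_rest_le ev cv g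
  refine ⟨(|R| + A) / |cv (k + 1)|, by positivity, fun z x hR => ?_⟩
  rw [div_mul_eq_mul_div, le_div_iff₀ (abs_pos.2 hc), ← abs_mul, mul_comm x.2]
  have e : cv (k + 1) * x.2 = C.fld ev cv g z x - (C.fld ev cv g z x - cv (k + 1) * x.2) := by ring
  rw [e]
  refine (abs_sub _ _).trans ((add_le_add (hR.trans (le_abs_self R)) (hb z x)).trans ?_)
  nlinarith [abs_nonneg R, Size.tot_nonneg (gaussSize ι) z]

theorem fld_update_row (ev : ℝ) (cv : ℕ → ℝ) (g : Fin m → ℝ) (i : Fin m) (s : ℝ)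
    (z : Fin k → ι → ℝ) (x : X0 × ℝ) :
    C.fld ev cv (Function.update g i s) z x = C.fld ev cv g z x + ev * C.p x.1 i * (s - g i) := by
  simp only [fld, lin, sdot]
  rw [← Finset.add_sum_erase _ _ (mem_univ i), ← Finset.add_sum_erase _ _ (mem_univ i),
    Function.update_self,
    sum_congr rfl fun j hj => by rw [Function.update_of_ne (ne_of_mem_erase hj)]]
  ring

variable [DecidableEq ι]

theorem fld_update_coord (ev : ℝ) (cv : ℕ → ℝ) (g : Fin m → ℝ) (a : Fin k) (s : ℝ)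
    (z : Fin k → ι → ℝ) (x : X0 × ℝ) :
    C.fld ev cv g (Function.update z a (Function.update (z a) C.i0 s)) x
      = C.fld ev cv g z x + cv (a + 1) * (s - z a C.i0) := by
  simp only [fld, lin]
  rw [← Finset.add_sum_erase _ _ (mem_univ a), ← Finset.add_sum_erase _ _ (mem_univ a),
    Function.update_self, Function.update_self,
    sum_congr rfl fun j hj => by rw [Function.update_of_ne (ne_of_mem_erase hj)]]
  ring

theorem base_update_coord (a : Fin k) (s : ℝ) (z : Fin k → ι → ℝ) (x : X0 × ℝ) :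
    C.base (Function.update z a (Function.update (z a) C.i0 s)) x = C.base z x := by
  simp only [base]
  rw [C.H0_indep _ z fun l i hi => ?_]
  by_cases hl : l = a
  · subst hl; rw [Function.update_self, Function.update_of_ne hi]
  · rw [Function.update_of_ne hl]

end Cas

section Ibp

variable {k m : ℕ} {ι X0 : Type} [Fintype ι] [DecidableEq ι] [MeasurableSpace X0]
  {μ0 : Measure X0} [IsProbabilityMeasure μ0] (C : Cas k m ι X0)
  {f f1 f2 f3 : ℝ → ℝ} {R B : ℝ}
  {N1 N2 : ((Fin k → ι → ℝ) → X0 × ℝ → ℝ) → (Fin k → ι → ℝ) → ℝ}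
  {η1 η2 : ((Fin k → ι → ℝ) → X0 × ℝ → ℝ) → (Fin k → ι → ℝ) → X0 × ℝ → ℝ}
  {l1 l2 : ℕ} {M1 M2 : ℝ} {h h' : ℝ → ℝ}

variable (μ0) in
/-- Conditional expectation in the cascade with field `U`. -/
noncomputable def ecnd (f : ℝ → ℝ) (U φ : (Fin k → ι → ℝ) → X0 × ℝ → ℝ) (l : ℕ)
    (z : Fin k → ι → ℝ) : ℝ :=
  cnd (stdG ι) (μ0.prod (gaussianReal 0 1)) (ham1 C.base f U) φ l z

/-- The derivative of `obs` in a direction. -/
noncomputable def dObs (μ0 : Measure X0) (f : ℝ → ℝ) (b : X0 → ℝ) (h h' : ℝ → ℝ) (l1 l2 : ℕ)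
    (U : (Fin k → ι → ℝ) → X0 × ℝ → ℝ) (n1 n2 : (Fin k → ι → ℝ) → ℝ)
    (e1 e2 : (Fin k → ι → ℝ) → X0 × ℝ → ℝ) (v v1 v2 : X0 → ℝ) (z : Fin k → ι → ℝ) (x : X0 × ℝ) : ℝ :=
  b x.1 * (h' (U z x) * v x.1 * (n1 z * n2 z)
    + h (U z x) * (ecnd μ0 C f U (fun z y => v1 y.1 * e1 z y) l1 z * n2 z
      + n1 z * ecnd μ0 C f U (fun z y => v2 y.1 * e2 z y) l2 z))

/-- The result of one integration by parts, as one observable. -/
noncomputable def res (μ0 : Measure X0) (f f1 : ℝ → ℝ) (b : X0 → ℝ) (h h' : ℝ → ℝ) (l1 l2 : ℕ)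
    (U : (Fin k → ι → ℝ) → X0 × ℝ → ℝ) (n1 n2 : (Fin k → ι → ℝ) → ℝ)
    (e1 e2 : (Fin k → ι → ℝ) → X0 × ℝ → ℝ) (v v1 v2 : X0 → ℝ) (S : Finset ℕ)
    (z : Fin k → ι → ℝ) (x : X0 × ℝ) : ℝ :=
  dObs C μ0 f b h h' l1 l2 U n1 n2 e1 e2 v v1 v2 z x
    + obs b h U n1 n2 z x * (f1 (U z x) * v x.1)
    - mass k * ∑ l ∈ S,
        ecnd μ0 C f U (fun z y => f1 (U z y) * v y.1) l z * obs b h U n1 n2 z x

theorem fold_tower {U φ ψ : (Fin k → ι → ℝ) → X0 × ℝ → ℝ}
    (hf : Cpt R B f) (hU : Measurable (Function.uncurry U)) (l : ℕ) (z : Fin k → ι → ℝ) :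
    ecnd μ0 C f U (fun z _ => ecnd μ0 C f U φ l z * ecnd μ0 C f U ψ l z) 0 z
      = ecnd μ0 C f U (fun z x => ecnd μ0 C f U ψ l z * φ z x) 0 z := by
  have hL := linB_ham1 C.base_lin hf hU
  unfold ecnd
  rw [← cnd_tower (φ := fun z x => cnd (stdG ι) (μ0.prod (gaussianReal 0 1)) (ham1 C.base f U) ψ l z * φ z x)
    hL (Nat.zero_le l) z]
  congr 1
  funext z' _
  rw [cnd_pull (cnd_upto l)]
  ring

variable (hP : Pot R B f f1 f2 f3)
  (h1 : Nd (stdG ι) (μ0.prod (gaussianReal 0 1)) (gaussSize ι) C.base f R N1 η1 l1 M1)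
  (h2 : Nd (stdG ι) (μ0.prod (gaussianReal 0 1)) (gaussSize ι) C.base f R N2 η2 l2 M2)
  (hh : Cpt R B h) (hh' : Cpt R B h') (hhd : ∀ u, HasDerivAt h (h' u) u)

section PBs

variable {P : Type} [MeasurableSpace P] {U : P → (Fin k → ι → ℝ) → X0 × ℝ → ℝ} (hU : JM U)

include hU in
omit [DecidableEq ι] in
theorem pb_comp {g : ℝ → ℝ} (hg : Cpt R B g) : PB fun p z x => g (U p z x) :=
  ⟨hg.meas.comp hU, B, fun _ _ _ => hg.bound _⟩

omit [DecidableEq ι] in
theorem pb_fst {b : X0 → ℝ} (hb : Measurable b) {M : ℝ} (hbb : ∀ x, |b x| ≤ M) :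
    PB fun (_ : P) (_ : Fin k → ι → ℝ) (x : X0 × ℝ) => b x.1 :=
  PB.leafFn (hb.comp measurable_fst) fun x => hbb x.1

include hU hh h1 h2 in
omit [DecidableEq ι] in
theorem pb_obs {b : X0 → ℝ} (hb : Measurable b) {Mb : ℝ} (hbb : ∀ x, |b x| ≤ Mb) :
    PB fun p => obs b h (U p) (N1 (U p)) (N2 (U p)) :=
  ((pb_fst hb hbb).mul (pb_comp hU hh)).mul ((h1.pbN hU).mul (h2.pbN hU))

include hU hP h1 h2 hh hh' in
omit [DecidableEq ι] in
theorem pb_dObs {b v v1 v2 : X0 → ℝ} (hb : Measurable b) {Mb : ℝ} (hbb : ∀ x, |b x| ≤ Mb)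
    (hv : Measurable v) {V : ℝ} (hvb : ∀ x, |v x| ≤ V) (hv1 : Measurable v1) {V1 : ℝ}
    (hv1b : ∀ x, |v1 x| ≤ V1) (hv2 : Measurable v2) {V2 : ℝ} (hv2b : ∀ x, |v2 x| ≤ V2) :
    PB fun p => dObs C μ0 f b h h' l1 l2 (U p) (N1 (U p)) (N2 (U p)) (η1 (U p)) (η2 (U p)) v v1 v2 :=
  (pb_fst hb hbb).mul ((((pb_comp hU hh').mul (pb_fst hv hvb)).mul ((h1.pbN hU).mul (h2.pbN hU))).add
    ((pb_comp hU hh).mul
      (((pb_cnd C.base_lin hP.hf hU ((pb_fst hv1 hv1b).mul (h1.pbη hU)) l1).mul (h2.pbN hU)).add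
        ((h1.pbN hU).mul (pb_cnd C.base_lin hP.hf hU ((pb_fst hv2 hv2b).mul (h2.pbη hU)) l2)))))

include hU hP h1 h2 hh hh' in
omit [DecidableEq ι] in
theorem pb_res {b v v1 v2 : X0 → ℝ} (hb : Measurable b) {Mb : ℝ} (hbb : ∀ x, |b x| ≤ Mb)
    (hv : Measurable v) {V : ℝ} (hvb : ∀ x, |v x| ≤ V) (hv1 : Measurable v1) {V1 : ℝ}
    (hv1b : ∀ x, |v1 x| ≤ V1) (hv2 : Measurable v2) {V2 : ℝ} (hv2b : ∀ x, |v2 x| ≤ V2) (S : Finset ℕ) :
    PB fun p => res C μ0 f f1 b h h' l1 l2 (U p) (N1 (U p)) (N2 (U p)) (η1 (U p)) (η2 (U p)) v v1 v2 S :=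
  ((pb_dObs C hP h1 h2 hh hh' hU hb hbb hv hvb hv1 hv1b hv2 hv2b).add
    ((pb_obs C h1 h2 hh hU hb hbb).mul ((pb_comp hU hP.hf1).mul (pb_fst hv hvb)))).sub
    ((PB.finsum S fun l _ => (pb_cnd C.base_lin hP.hf hU ((pb_comp hU hP.hf1).mul (pb_fst hv hvb)) l).mul
      (pb_obs C h1 h2 hh hU hb hbb)).const_mul _)

end PBs

variable {b : X0 → ℝ} (hb : Measurable b) {Mb : ℝ} (hbb : ∀ x, |b x| ≤ Mb)

include hP h1 h2 hh hh' hb hbb in
theorem cnd_res {U : (Fin k → ι → ℝ) → X0 × ℝ → ℝ} (hU : Measurable (Function.uncurry U))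
    {v v1 v2 : X0 → ℝ}
    (hv : Measurable v) {V : ℝ} (hvb : ∀ x, |v x| ≤ V) (hv1 : Measurable v1) {V1 : ℝ}
    (hv1b : ∀ x, |v1 x| ≤ V1) (hv2 : Measurable v2) {V2 : ℝ} (hv2b : ∀ x, |v2 x| ≤ V2) (S : Finset ℕ)
    (z : Fin k → ι → ℝ) :
    ecnd μ0 C f U (res C μ0 f f1 b h h' l1 l2 U (N1 U) (N2 U) (η1 U) (η2 U) v v1 v2 S) 0 z
      = ecnd μ0 C f U (fun z x => dObs C μ0 f b h h' l1 l2 U (N1 U) (N2 U) (η1 U) (η2 U) v v1 v2 z x
            + obs b h U (N1 U) (N2 U) z x * (f1 (U z x) * v x.1)) 0 z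
        - mass k * ∑ l ∈ S, ecnd μ0 C f U (fun z _ => ecnd μ0 C f U (obs b h U (N1 U) (N2 U)) l z
            * ecnd μ0 C f U (fun z y => f1 (U z y) * v y.1) l z) 0 z := by
  have hJ : JM fun _ : Unit => U := JM.of_unit hU
  have hL := linB_ham1 C.base_lin hP.hf hU
  have a1 := (pb_dObs C hP h1 h2 hh hh' hJ hb hbb hv hvb hv1 hv1b hv2 hv2b).add
    ((pb_obs C h1 h2 hh hJ hb hbb).mul ((pb_comp hJ hP.hf1).mul (pb_fst hv hvb)))
  have a2 := fun l => (pb_cnd (γ := stdG ι) (μ := μ0.prod (gaussianReal 0 1)) C.base_lin hP.hf hJ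
    ((pb_comp hJ hP.hf1).mul (pb_fst hv hvb)) l).mul (pb_obs C h1 h2 hh hJ hb hbb)
  rw [sum_congr rfl fun l _ => fold_tower C hP.hf hU (φ := obs b h U (N1 U) (N2 U))
    (ψ := fun z y => f1 (U z y) * v y.1) l z]
  unfold res ecnd
  rw [cnd_sub (μ := μ0.prod (gaussianReal 0 1)) hL (φ := fun z x => dObs C μ0 f b h h' l1 l2 U (N1 U) (N2 U) (η1 U) (η2 U) v v1 v2 z x
      + obs b h U (N1 U) (N2 U) z x * (f1 (U z x) * v x.1))
    (ψ := fun z x => mass k * ∑ l ∈ S, cnd (stdG ι) (μ0.prod (gaussianReal 0 1)) (ham1 C.base f U)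
      (fun z y => f1 (U z y) * v y.1) l z * obs b h U (N1 U) (N2 U) z x)
    (a1.tame ()) (((PB.finsum S fun l _ => a2 l).const_mul _).tame ()), cnd_const_mul,
    cnd_finsum hL S fun l _ => (a2 l).tame ()]

variable (ev : ℝ) (cv : ℕ → ℝ)

include hP h1 h2 hh hh' hhd hb hbb in
/-- The derivative of an expectation in one coordinate of the row. -/
theorem hasDerivAt_row (g : Fin m → ℝ) (i : Fin m) (z : Fin k → ι → ℝ) :
    HasDerivAt (fun s => ecnd μ0 C f (C.fld ev cv (Function.update g i s))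
        (obs b h (C.fld ev cv (Function.update g i s)) (N1 (C.fld ev cv (Function.update g i s)))
          (N2 (C.fld ev cv (Function.update g i s)))) 0 z)
      (ecnd μ0 C f (C.fld ev cv g) (res C μ0 f f1 b h h' l1 l2 (C.fld ev cv g) (N1 (C.fld ev cv g))
        (N2 (C.fld ev cv g)) (η1 (C.fld ev cv g)) (η2 (C.fld ev cv g))
        (fun x => ev * C.p x i) (fun x => ev * C.p x i) (fun x => ev * C.p x i) (Icc 0 k)) 0 z)
      (g i) := by
  obtain ⟨P, hP0, hPb⟩ := C.p_bdd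
  set v : X0 → ℝ := fun x => ev * C.p x i with hvdef
  have hv : Measurable v := (C.p_coord i).const_mul ev
  have hvb : ∀ x, |v x| ≤ |ev| * P := fun x => by
    rw [hvdef, abs_mul]; exact mul_le_mul_of_nonneg_left (hPb _ _) (abs_nonneg _)
  set U : ℝ → (Fin k → ι → ℝ) → X0 × ℝ → ℝ := fun s => C.fld ev cv (Function.update g i s) with hUdef
  have hU : JM U := (C.fld_jm ev cv).comp (f := fun q : (ℝ × (Fin k → ι → ℝ)) × (X0 × ℝ) =>
      ((Function.update g i q.1.1, q.1.2), q.2))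
    ((((measurable_update g).comp (measurable_fst.comp measurable_fst)).prodMk
      (measurable_snd.comp measurable_fst)).prodMk measurable_snd)
  have hderU : ∀ s z x, HasDerivAt (fun t => U t z x) (v x.1) s := fun s z x => by
    simp only [hUdef, C.fld_update_row, hvdef]
    simpa using ((((hasDerivAt_id s).sub_const (g i)).const_mul (ev * C.p x.1 i)).const_add
      (C.fld ev cv g z x))
  have hFam : Fam (gaussSize ι) R U (fun _ z x => v x.1) (g i) 1 :=
    ⟨one_pos, fun s => hU.at' s, fun _ => hv.comp (measurable_fst.comp measurable_snd),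
      fun s _ => hderU s, |ev| * P, by positivity, fun s _ z x _ => (hvb x.1).trans
        (le_mul_of_one_le_right (by positivity) (one_le_exp (by
          have := Size.tot_nonneg (gaussSize ι) z; positivity)))⟩
  have pφ := pb_obs C h1 h2 hh hU hb hbb
  have pd := pb_dObs C hP h1 h2 hh hh' hU hb hbb hv hvb hv hvb hv hvb
  have pH : PB fun s z (x : X0 × ℝ) => f1 (U s z x) * v x.1 := (pb_comp hU hP.hf1).mul (pb_fst hv hvb)
  obtain ⟨A0, hA0, hb0⟩ := C.base_lin.bound
  obtain ⟨Aφ, hφ⟩ := pφ.bound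
  obtain ⟨Ad, hd⟩ := pd.bound
  obtain ⟨AH, hH⟩ := pH.bound
  have hB : 0 ≤ B := zero_le_one.trans hP.one_le
  have F : Family (gaussSize ι) (fun s => ham1 C.base f (U s))
      (fun s => obs b h (U s) (N1 (U s)) (N2 (U s))) (fun s z x => f1 (U s z x) * v x.1)
      (fun s => dObs C μ0 f b h h' l1 l2 (U s) (N1 (U s)) (N2 (U s)) (η1 (U s)) (η2 (U s)) v v v)
      (g i) 1 := by
    refine ⟨one_pos, fun s => (linB_ham1 C.base_lin hP.hf (hU.at' s)).meas, fun s => pH.meas.at' s,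
      fun s => pφ.meas.at' s, fun s => pd.meas.at' s,
      ⟨A0 + B + |Aφ| + |Ad| + |AH|, by positivity, fun s _ z x => ?_⟩,
      fun s _ z x => ((hP.d1 _).comp s (hderU s z x)).const_add (C.base z x), fun s hs z x => ?_⟩
    · have ht := Size.tot_nonneg (gaussSize ι) z
      have hE : 1 ≤ exp ((A0 + B + |Aφ| + |Ad| + |AH|) * (gaussSize ι).tot z) :=
        one_le_exp (by positivity)
      refine ⟨(abs_add_le _ _).trans ((add_le_add (hb0 z x) (hP.hf.bound _)).trans ?_),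
        (hH s z x).trans ((le_mul_of_one_le_right (by positivity) hE).trans' ?_),
        (hφ s z x).trans ((le_mul_of_one_le_right (by positivity) hE).trans' ?_),
        (hd s z x).trans ((le_mul_of_one_le_right (by positivity) hE).trans' ?_)⟩
      · nlinarith [abs_nonneg Aφ, abs_nonneg Ad, abs_nonneg AH]
      all_goals
        linarith [le_abs_self Aφ, le_abs_self Ad, le_abs_self AH, abs_nonneg Aφ, abs_nonneg Ad,
          abs_nonneg AH]
    · refine ((((hhd _).comp s (hderU s z x)).const_mul (b x.1)).mul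
        ((h1.deriv U _ s _ (hFam.recentre hs) z).mul (h2.deriv U _ s _ (hFam.recentre hs) z))).congr_deriv ?_
      simp only [dObs, ecnd, Pi.mul_apply, Function.comp]
      ring
  have hg : U (g i) = C.fld ev cv g := by simp only [hUdef, Function.update_eq_self]
  refine (hasDerivAt_cnd F (Nat.zero_le k) z).congr_deriv ?_
  rw [← hg, cnd_res C hP h1 h2 hh hh' hb hbb (hU.at' (g i)) hv hvb hv hvb hv hvb]
  simp only [cndDer, ecnd]
  rw [← Finset.insert_Icc_succ_left_eq_Icc (Nat.zero_le k),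
    sum_insert (by simp), cnd_const_fun (linB_ham1 C.base_lin hP.hf (hU.at' (g i)))
      (c := fun z => cnd (stdG ι) (μ0.prod (gaussianReal 0 1)) (ham1 C.base f (U (g i)))
          (obs b h (U (g i)) (N1 (U (g i))) (N2 (U (g i)))) 0 z
        * cnd (stdG ι) (μ0.prod (gaussianReal 0 1)) (ham1 C.base f (U (g i)))
          (fun z y => f1 (U (g i) z y) * v y.1) 0 z)
      (fun z z' hz => by simp only; congr 1 <;> exact cnd_upto 0 z z' hz) z]
  have e : lev k (0 + 1) = mass k := by simp [lev, mass]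
  rw [e]
  simp only [Order.succ_eq_add_one]
  ring

include hP h1 h2 hh hh' hhd hb hbb in
/-- Integration by parts in a field of a level. -/
theorem ibp_level (g : Fin m → ℝ) (a : Fin k) (z : Fin k → ι → ℝ) :
    ecnd μ0 C f (C.fld ev cv g) (fun z x => z a C.i0
        * obs b h (C.fld ev cv g) (N1 (C.fld ev cv g)) (N2 (C.fld ev cv g)) z x) 0 z
      = ecnd μ0 C f (C.fld ev cv g) (res C μ0 f f1 b h h' l1 l2 (C.fld ev cv g) (N1 (C.fld ev cv g))
        (N2 (C.fld ev cv g)) (η1 (C.fld ev cv g)) (η2 (C.fld ev cv g)) (fun _ => cv (a + 1))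
        (fun _ => if (a : ℕ) < l1 then cv (a + 1) else 0)
        (fun _ => if (a : ℕ) < l2 then cv (a + 1) else 0) (Icc ((a : ℕ) + 1) k)) 0 z := by
  set U := C.fld ev cv g with hUdef
  have hU : Measurable (Function.uncurry U) := (C.fld_jm ev cv).at' g
  have hJ : JM fun _ : Unit => U := JM.of_unit hU
  have hc : ∀ c : ℝ, ∀ _ : X0, |c| ≤ |c| := fun c _ => le_rfl
  have hL := linB_ham1 C.base_lin hP.hf hU
  have hcm : ∀ c : ℝ, Measurable fun _ : X0 => c := fun c => measurable_const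
  rw [cnd_res C hP h1 h2 hh hh' hb hbb hU (hcm _) (hc _) (hcm _) (hc _) (hcm _) (hc _)]
  unfold ecnd
  -- one node along the coordinate
  have node_der : ∀ {N : ((Fin k → ι → ℝ) → X0 × ℝ → ℝ) → (Fin k → ι → ℝ) → ℝ}
      {η : ((Fin k → ι → ℝ) → X0 × ℝ → ℝ) → (Fin k → ι → ℝ) → X0 × ℝ → ℝ} {l : ℕ} {M : ℝ},
      Nd (stdG ι) (μ0.prod (gaussianReal 0 1)) (gaussSize ι) C.base f R N η l M →
      ∀ z, HasDerivAt (fun t => N U (Function.update z a (Function.update (z a) C.i0 t)))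
        (cnd (stdG ι) (μ0.prod (gaussianReal 0 1)) (ham1 C.base f U)
          (fun z y => (if (a : ℕ) < l then cv (a + 1) else 0) * η U z y) l z) (z a C.i0) := by
    intro N η l M hN z
    by_cases hal : (a : ℕ) < l
    · simp only [if_pos hal]
      set T : ℝ → (ι → ℝ) → ι → ℝ := fun t y => Function.update y C.i0 (y C.i0 + t) with hT
      have hinv : ∀ t z x, C.base (Function.update z a (T t (z a))) x = C.base z x :=
        fun t z x => C.base_update_coord a _ z x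
      set W : ℝ → (Fin k → ι → ℝ) → X0 × ℝ → ℝ := fun t z x => U z x + cv (a + 1) * t with hW
      have hWm : ∀ t, Measurable (Function.uncurry (W t)) := fun t => hU.add_const _
      have hW0 : W 0 = U := by funext z x; simp [hW]
      have hFam : Fam (gaussSize ι) R W (fun _ _ _ => cv (a + 1)) 0 1 :=
        ⟨one_pos, hWm, fun _ => measurable_const,
          fun s _ z x => by
            simpa [hW] using ((hasDerivAt_id s).const_mul (cv (a + 1))).const_add (U z x),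
          |cv (a + 1)|, abs_nonneg _, fun s _ z x _ => le_mul_of_one_le_right (abs_nonneg _)
            (one_le_exp (by have := Size.tot_nonneg (gaussSize ι) z; positivity))⟩
      have hd := hN.deriv W _ 0 1 hFam z
      rw [hW0] at hd
      have e : (fun t => N U (Function.update z a (Function.update (z a) C.i0 t)))
          = (fun t => N (W t) z) ∘ fun t => t - z a C.i0 := by
        funext t
        have e1 : Function.update (z a) C.i0 t = T (t - z a C.i0) (z a) := by simp [hT]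
        rw [Function.comp, e1, hN.shift a (T (t - z a C.i0)) (hinv _) hal U z]
        congr 1
        funext z' x
        simp only [hT, hW, hUdef, C.fld_update_coord]
        ring
      rw [e]
      have hsub : HasDerivAt (fun t : ℝ => t - z a C.i0) 1 (z a C.i0) :=
        (hasDerivAt_id (z a C.i0)).sub_const _
      simpa using hd.comp_of_eq (z a C.i0) hsub (sub_self _).symm
    · simp only [if_neg hal, zero_mul]
      rw [cnd_const hL]
      have e : (fun t => N U (Function.update z a (Function.update (z a) C.i0 t))) = fun _ => N U z :=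
        funext fun t => hN.upto U _ _ fun i hi => Function.update_of_ne (fun e' => hal (by subst e'; exact hi)) _ _
      rw [e]
      exact hasDerivAt_const _ _
  have hderU : ∀ z x, HasDerivAt
      (fun t => U (Function.update z a (Function.update (z a) C.i0 t)) x) (cv (a + 1)) (z a C.i0) :=
    fun z x => by
      simp only [hUdef, C.fld_update_coord]
      simpa using (((hasDerivAt_id (z a C.i0)).sub_const (z a C.i0)).const_mul (cv (a + 1))).const_add
        (C.fld ev cv g z x)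
  have tφ := (pb_obs C h1 h2 hh hJ hb hbb).tame (w := gaussSize ι) ()
  have tH := ((pb_comp hJ hP.hf1).mul
    (pb_fst (P := Unit) (hcm (cv (a + 1))) (hc (cv (a + 1))))).tame (w := gaussSize ι) ()
  have td := (pb_dObs C hP h1 h2 hh hh' hJ hb hbb (hcm (cv (a + 1))) (hc (cv (a + 1)))
    (hcm (if (a : ℕ) < l1 then cv (a + 1) else 0)) (hc (if (a : ℕ) < l1 then cv (a + 1) else 0))
    (hcm (if (a : ℕ) < l2 then cv (a + 1) else 0))
    (hc (if (a : ℕ) < l2 then cv (a + 1) else 0))).tame (w := gaussSize ι) ()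
  refine cnd_ibp C.i0 a hL tφ tH td (fun z x => ?_) (fun z x => ?_) (Nat.zero_le _) z
  · simp only [ham1, C.base_update_coord]
    exact ((hP.d1 _).comp (z a C.i0) (hderU z x)).const_add _ |>.congr_deriv (by
      simp only [Function.update_eq_self])
  · refine ((((hhd _).comp (z a C.i0) (hderU z x)).const_mul (b x.1)).mul
      ((node_der h1 z).mul (node_der h2 z))).congr_deriv ?_
    simp only [dObs, ecnd, Pi.mul_apply, Function.comp, Function.update_eq_self]
    ring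

include h1 h2 hh hb hbb in
omit [DecidableEq ι] in
/-- The leaf variable times a monomial is admissible. -/
theorem tame_leaf_obs (hc : cv (k + 1) ≠ 0) (g : Fin m → ℝ) :
    Tame (gaussSize ι) fun z x => x.2
      * obs b h (C.fld ev cv g) (N1 (C.fld ev cv g)) (N2 (C.fld ev cv g)) z x := by
  set U := C.fld ev cv g with hUdef
  have hJ : JM fun _ : Unit => U := JM.of_unit ((C.fld_jm ev cv).at' g)
  have pφ := pb_obs C h1 h2 hh hJ hb hbb
  obtain ⟨Aφ, hφ⟩ := pφ.bound
  obtain ⟨A, hA, hle⟩ := C.leaf_le (ev := ev) hc g R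
  refine ⟨(measurable_snd.comp measurable_snd).mul (pφ.meas.at' ()), max 1 (A * |Aφ|),
    le_max_of_le_left zero_le_one, fun z x => ?_⟩
  have hw := Size.tot_nonneg (gaussSize ι) z
  rcases lt_or_ge R |U z x| with hlt | hle'
  · rw [obs, hh.zero _ hlt]; simp; positivity
  · rw [abs_mul]
    calc |x.2| * |obs b h U (N1 U) (N2 U) z x| ≤ A * (1 + (gaussSize ι).tot z) * |Aφ| :=
          mul_le_mul (hle z x hle') ((hφ () z x).trans (le_abs_self _)) (abs_nonneg _) (by positivity)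
      _ = A * |Aφ| * ((gaussSize ι).tot z + 1) := by ring
      _ ≤ max 1 (A * |Aφ|) * exp (max 1 (A * |Aφ|) * (gaussSize ι).tot z) :=
          mul_le_mul (le_max_right _ _) ((add_one_le_exp _).trans (exp_le_exp.2
            (le_mul_of_one_le_left hw (le_max_left _ _)))) (by positivity)
            (le_max_of_le_left zero_le_one)

include hP h1 h2 hh hh' hhd hb hbb in
/-- Integration by parts in the leaf variable. -/
theorem ibp_leaf (hc : cv (k + 1) ≠ 0) (g : Fin m → ℝ) (z : Fin k → ι → ℝ) :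
    ecnd μ0 C f (C.fld ev cv g) (fun z x => x.2
        * obs b h (C.fld ev cv g) (N1 (C.fld ev cv g)) (N2 (C.fld ev cv g)) z x) 0 z
      = ecnd μ0 C f (C.fld ev cv g) (res C μ0 f f1 b h h' l1 l2 (C.fld ev cv g) (N1 (C.fld ev cv g))
        (N2 (C.fld ev cv g)) (η1 (C.fld ev cv g)) (η2 (C.fld ev cv g)) (fun _ => cv (k + 1))
        (fun _ => 0) (fun _ => 0) ∅) 0 z := by
  set U := C.fld ev cv g with hUdef
  have hU : Measurable (Function.uncurry U) := (C.fld_jm ev cv).at' g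
  have hJ : JM fun _ : Unit => U := JM.of_unit hU
  have hcb : ∀ c : ℝ, ∀ _ : X0, |c| ≤ |c| := fun c _ => le_rfl
  have hcm : ∀ c : ℝ, Measurable fun _ : X0 => c := fun c => measurable_const
  have hL := linB_ham1 C.base_lin hP.hf hU
  rw [cnd_res C hP h1 h2 hh hh' hb hbb hU (hcm _) (hcb _) (hcm _) (hcb _) (hcm _) (hcb _)]
  simp only [sum_empty, mul_zero, sub_zero]
  unfold ecnd
  have pφ := pb_obs C h1 h2 hh hJ hb hbb
  have ht := tame_leaf_obs C h1 h2 hh hb hbb ev cv hc g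
  have hderU : ∀ z (x : X0) t, HasDerivAt (fun s => U z (x, s)) (cv (k + 1)) t := fun z x t => by
    simp only [hUdef, Cas.fld, Cas.lin]
    simpa using (((hasDerivAt_id t).const_mul (cv (k + 1))).const_add
      (ev * sdot g (C.p x) + ∑ l : Fin k, cv (l + 1) * z l C.i0)).add_const (C.off x)
  refine cnd_ibp_leaf hL (pφ.tame ()) ht
    (((pb_comp hJ hP.hf1).mul (pb_fst (P := Unit) (hcm (cv (k + 1))) (hcb (cv (k + 1))))).tame ())
    ((pb_dObs C hP h1 h2 hh hh' hJ hb hbb (hcm (cv (k + 1))) (hcb (cv (k + 1))) (hcm 0) (hcb 0)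
      (hcm 0) (hcb 0)).tame ()) (fun z x t => ?_) (fun z x t => ?_) 0 z
  · exact ((hP.d1 _).comp t (hderU z x t)).const_add (C.base z (x, t))
  · refine ((((hhd _).comp t (hderU z x t)).const_mul (b x)).mul_const (N1 U z * N2 U z)).congr_deriv ?_
    simp only [dObs, ecnd, zero_mul, cnd_const hL]
    ring

end Ibp

end Vale.Agent.P166.Rsb.Slot
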