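import Vale.Agent.P166.Rsb.Slot.Master

/-!
# P166: the interpolation path

The interpolation of `Vale.Agent.P157.Rsb.Slot`, for a field with an offset that depends on the leaf
and a row whose squared length is only close to the total variance.
-/

open MeasureTheory ProbabilityTheory Real Finset
open Vale.Agent.P157.Rsb
open Vale.Agent.P157.Rsb.Slot

namespace Vale.Agent.P166.Rsb.Slot

variable {k m : ℕ} {ι X0 : Type} [Fintype ι] [DecidableEq ι] [MeasurableSpace X0]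
  {μ0 : Measure X0} [IsProbabilityMeasure μ0] (C : Cas k m ι X0)
  {f f1 f2 f3 : ℝ → ℝ} {R B : ℝ} (ε : ℝ) (D D' : ℕ → ℝ)

/-- The field on the path. -/
noncomputable def pU (θ : ℝ) (g : Fin m → ℝ) : (Fin k → ι → ℝ) → X0 × ℝ → ℝ :=
  C.fld (ε * cos θ) (amp D D' θ) g

/-- The velocity of the field. -/
noncomputable def pV (θ : ℝ) (g : Fin m → ℝ) : (Fin k → ι → ℝ) → X0 × ℝ → ℝ :=
  C.lin (-(ε * sin θ)) (damp D D' θ) g

omit [DecidableEq ι] in
theorem pU_jm (θ : ℝ) : JM (pU C ε D D' θ) := C.fld_jm _ _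

omit [DecidableEq ι] in
theorem pV_jm (θ : ℝ) : JM (pV C ε D D' θ) := C.lin_jm _ _

/-- A bound on the Gaussian part of the row and the levels. -/
noncomputable def wgt (z : Fin k → ι → ℝ) (g : Fin m → ℝ) : ℝ :=
  (1 + ∑ i, |g i|) * (1 + (gaussSize ι).tot z)

omit [DecidableEq ι] in
theorem wgt_one_le (z : Fin k → ι → ℝ) (g : Fin m → ℝ) : 1 ≤ wgt z g :=
  one_le_mul_of_one_le_of_one_le (le_add_of_nonneg_right (sum_nonneg fun _ _ => abs_nonneg _))
    (le_add_of_nonneg_right (Size.tot_nonneg _ z))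

omit [DecidableEq ι] in
/-- The velocity is controlled where the field is bounded. -/
theorem pV_bound (hD : ∀ l, 0 ≤ D l) (hD' : ∀ l, 0 ≤ D' l) {δ : ℝ} (hδ : 0 < δ) (R : ℝ) :
    ∃ A, 0 ≤ A ∧ ∀ θ, δ ≤ cos θ → δ ≤ sin θ → ∀ g z x,
      |pU C ε D D' θ g z x| ≤ R → |pV C ε D D' θ g z x| ≤ A * wgt z g := by
  obtain ⟨P, hP0, hP⟩ := C.p_bdd
  obtain ⟨O, hO0, hO⟩ := C.off_bdd
  set S := ∑ l : Fin k, √(D (l + 1) + D' (l + 1)) with hS
  have hS0 : 0 ≤ S := sum_nonneg fun _ _ => Real.sqrt_nonneg _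
  set K := |ε| * P + S + S / δ + |R| + O with hK
  have hK0 : 0 ≤ K := by positivity
  refine ⟨K + 2 * K / δ ^ 2, by positivity, fun θ hc hs g z x hU => ?_⟩
  set G := ∑ i, |g i| with hG
  set T := (gaussSize ι).tot z with hT
  have hG0 : 0 ≤ G := sum_nonneg fun _ _ => abs_nonneg _
  have hT0 : 0 ≤ T := Size.tot_nonneg _ z
  have hsd : |sdot g (C.p x.1)| ≤ P * G := by
    rw [hG, mul_sum]
    refine (abs_sum_le_sum_abs _ _).trans (sum_le_sum fun i _ => ?_)
    rw [abs_mul, mul_comm P]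
    exact mul_le_mul_of_nonneg_left (hP _ _) (abs_nonneg _)
  have hlin : ∀ {e : ℝ} {c : ℕ → ℝ} {r : ℝ}, |e| ≤ |ε| →
      (∀ l : Fin k, |c (l + 1)| ≤ √(D (l + 1) + D' (l + 1)) * r) →
      |e * sdot g (C.p x.1) + ∑ l : Fin k, c (l + 1) * z l C.i0| ≤ |ε| * P * G + S * r * T := by
    intro e c r he hcl
    refine (abs_add_le _ _).trans (add_le_add ?_ ?_)
    · rw [abs_mul, mul_assoc]; exact mul_le_mul he hsd (abs_nonneg _) (abs_nonneg _)
    · refine (abs_sum_le_sum_abs _ _).trans ?_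
      rw [hS, sum_mul, sum_mul]
      refine sum_le_sum fun l _ => ?_
      rw [abs_mul]
      exact mul_le_mul (hcl l) (Cas.abs_coord_le z l _) (abs_nonneg _) ((abs_nonneg _).trans (hcl l))
  have h1 : |ε * cos θ * sdot g (C.p x.1) + ∑ l : Fin k, amp D D' θ (l + 1) * z l C.i0|
      ≤ |ε| * P * G + S * 1 * T := hlin
    (by rw [abs_mul]; exact mul_le_of_le_one_right (abs_nonneg _) (abs_cos_le_one θ))
    (fun l => by rw [abs_of_nonneg (show 0 ≤ amp D D' θ (l + 1) from Real.sqrt_nonneg _), mul_one];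
                 exact amp_le hD hD' θ)
  have h2 : |-(ε * sin θ) * sdot g (C.p x.1) + ∑ l : Fin k, damp D D' θ (l + 1) * z l C.i0|
      ≤ |ε| * P * G + S * δ⁻¹ * T := hlin
    (by rw [abs_neg, abs_mul]; exact mul_le_of_le_one_right (abs_nonneg _) (abs_sin_le_one θ))
    (fun l => by rw [← div_eq_mul_inv]; exact abs_damp_le hD hD' hδ hc hs)
  have h3 : |damp D D' θ (k + 1) * x.2| ≤ |amp D D' θ (k + 1) * x.2| / δ ^ 2 := by
    rw [abs_mul, abs_mul, mul_div_right_comm]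
    refine mul_le_mul_of_nonneg_right ?_ (abs_nonneg _)
    refine (abs_damp_le hD hD' hδ hc hs).trans ?_
    rw [abs_of_nonneg (show 0 ≤ amp D D' θ (k + 1) from Real.sqrt_nonneg _),
      div_le_div_iff₀ hδ (pow_pos hδ 2)]
    nlinarith [le_amp (l := k + 1) hD hD' hδ.le hc hs, hδ.le]
  have h4 : |amp D D' θ (k + 1) * x.2| ≤ |R| + O + (|ε| * P * G + S * 1 * T) := by
    have e : amp D D' θ (k + 1) * x.2 = (pU C ε D D' θ g z x - C.off x.1)
        - (ε * cos θ * sdot g (C.p x.1) + ∑ l : Fin k, amp D D' θ (l + 1) * z l C.i0) := by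
      simp only [pU, Cas.fld, Cas.lin]; ring
    rw [e]
    exact (abs_sub _ _).trans (add_le_add ((abs_sub _ _).trans (add_le_add (hU.trans (le_abs_self R))
      (hO x.1))) h1)
  have hW : ∀ {a b c : ℝ}, 0 ≤ a → 0 ≤ b → 0 ≤ c → a + b * G + c * T ≤ (a + b + c) * ((1 + G) * (1 + T)) := by
    intro a b c ha hb hc'
    nlinarith [mul_nonneg hG0 hT0, mul_nonneg ha hG0, mul_nonneg ha hT0, mul_nonneg hb hT0,
      mul_nonneg hc' hG0, mul_nonneg (mul_nonneg ha hG0) hT0, mul_nonneg (mul_nonneg hb hG0) hT0,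
      mul_nonneg (mul_nonneg hc' hG0) hT0]
  simp only [pV, Cas.lin]
  refine (abs_add_le _ _).trans ((add_le_add h2 (h3.trans (div_le_div_of_nonneg_right h4 (sq_nonneg δ)))).trans ?_)
  have ha : |ε| * P * G + S * δ⁻¹ * T ≤ K * ((1 + G) * (1 + T)) := by
    have := hW (le_refl (0 : ℝ)) (mul_nonneg (abs_nonneg ε) hP0) (mul_nonneg hS0 (inv_nonneg.2 hδ.le))
    rw [zero_add] at this
    exact this.trans (mul_le_mul_of_nonneg_right
      (by rw [hK, ← div_eq_mul_inv]; linarith [abs_nonneg R]) (by positivity))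
  have hb : |R| + O + (|ε| * P * G + S * 1 * T) ≤ 2 * K * ((1 + G) * (1 + T)) := by
    have := hW (add_nonneg (abs_nonneg R) hO0) (mul_nonneg (abs_nonneg ε) hP0) (by rw [mul_one]; exact hS0 : 0 ≤ S * 1)
    rw [← add_assoc]
    exact this.trans (mul_le_mul_of_nonneg_right
      (by rw [hK, mul_one]; linarith [div_nonneg hS0 hδ.le, abs_nonneg R, mul_nonneg (abs_nonneg ε) hP0])
      (by positivity))
  refine (add_le_add ha (div_le_div_of_nonneg_right hb (sq_nonneg δ))).trans (le_of_eq ?_)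
  simp only [wgt, ← hG, ← hT]
  ring

omit [DecidableEq ι] in
theorem tame_wgt (A : ℝ) (g : Fin m → ℝ) :
    Tame (gaussSize ι) fun (z : Fin k → ι → ℝ) (_ : X0 × ℝ) => A * wgt z g := by
  have h1 : LinB (gaussSize ι) fun (z : Fin k → ι → ℝ) (_ : X0 × ℝ) => A * wgt z g :=
    ⟨((((gaussSize ι).measurable_tot.const_add 1).const_mul _).const_mul A).comp measurable_fst,
      |A| * (1 + ∑ i, |g i|), by positivity, fun z _ => by
        rw [abs_mul, abs_of_nonneg (zero_le_one.trans (wgt_one_le z g)), wgt, mul_assoc]⟩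
  exact h1.tame

/-- A point of the open interval has a uniform margin. -/
theorem margin {θ₀ : ℝ} (h0 : 0 < θ₀) (h1 : θ₀ < π / 2) :
    ∃ δ r, 0 < δ ∧ 0 < r ∧ ∀ θ, |θ - θ₀| < r → δ ≤ cos θ ∧ δ ≤ sin θ := by
  set r := min θ₀ (π / 2 - θ₀) / 2 with hr
  have hr0 : 0 < r := by have := lt_min h0 (by linarith : 0 < π / 2 - θ₀); positivity
  have hr1 : 2 * r ≤ θ₀ := by rw [hr]; linarith [min_le_left θ₀ (π / 2 - θ₀)]
  have hr2 : 2 * r ≤ π / 2 - θ₀ := by rw [hr]; linarith [min_le_right θ₀ (π / 2 - θ₀)]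
  refine ⟨min (cos (θ₀ + r)) (sin (θ₀ - r)), r,
    lt_min (cos_pos_of_mem_Ioo ⟨by linarith [pi_pos], by linarith⟩)
      (sin_pos_of_pos_of_lt_pi (by linarith) (by linarith [pi_pos])), hr0, fun θ hθ => ?_⟩
  rw [abs_lt] at hθ
  exact ⟨(min_le_left _ _).trans (cos_le_cos_of_nonneg_of_le_pi (by linarith) (by linarith [pi_pos])
      (by linarith)),
    (min_le_right _ _).trans (sin_le_sin_of_le_of_le_pi_div_two (by linarith [pi_pos]) (by linarith)
      (by linarith))⟩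

omit [DecidableEq ι] in
/-- The path is a family of fields near interior points. -/
theorem path_fam (hD : ∀ l, 0 ≤ D l) (hD' : ∀ l, 0 ≤ D' l) {θ₀ : ℝ} (h0 : 0 < θ₀) (h1 : θ₀ < π / 2)
    (R : ℝ) : ∃ r A, 0 < r ∧ 0 ≤ A ∧
      (∀ g, Fam (gaussSize ι) R (fun θ => pU C ε D D' θ g) (fun θ => pV C ε D D' θ g) θ₀ r) ∧
      ∀ θ, |θ - θ₀| < r → ∀ g z x, |pU C ε D D' θ g z x| ≤ R → |pV C ε D D' θ g z x| ≤ A * wgt z g := by
  obtain ⟨δ, r, hδ, hr, hm⟩ := margin h0 h1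
  obtain ⟨A, hA, hb⟩ := pV_bound C ε D D' hD hD' hδ R
  refine ⟨r, A, hr, hA, fun g => ⟨hr, fun θ => (pU_jm C ε D D' θ).at' g,
    fun θ => (pV_jm C ε D D' θ).at' g, fun θ hθ z x => ?_, ?_⟩,
    fun θ hθ => hb θ (hm θ hθ).1 (hm θ hθ).2⟩
  · have hc := hδ.trans_le (hm θ hθ).1
    have hs := hδ.trans_le (hm θ hθ).2
    simp only [pU, pV, Cas.fld, Cas.lin]
    refine (((((hasDerivAt_cos θ).const_mul ε).mul_const _).add
      (HasDerivAt.fun_sum (u := univ) fun l _ => (hasDerivAt_amp hD hD' hc hs).mul_const _)).add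
      ((hasDerivAt_amp hD hD' hc hs).mul_const _)).add_const (C.off x.1) |>.congr_deriv ?_
    ring
  · obtain ⟨A', hA', hT⟩ := (tame_wgt (k := k) (ι := ι) (X0 := X0) A g).bound
    exact ⟨A', hA', fun θ hθ z x hU => (hb θ (hm θ hθ).1 (hm θ hθ).2 g z x hU).trans
      ((le_abs_self _).trans (hT z x))⟩

/-! ### velocity against slots -/

/-- A slot: measurable, bounded, zero where the field is large. -/
structure Slt (R : ℝ) (U : (Fin m → ℝ) → (Fin k → ι → ℝ) → X0 × ℝ → ℝ)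
    (φ : (Fin m → ℝ) → (Fin k → ι → ℝ) → X0 × ℝ → ℝ) : Prop where
  pb : PB φ
  zero : ∀ g z x, R < |U g z x| → φ g z x = 0

variable (μ0) in
/-- The velocity against a slot, averaged over the row. -/
noncomputable def vel (f : ℝ → ℝ) (θ : ℝ) (φ : (Fin m → ℝ) → (Fin k → ι → ℝ) → X0 × ℝ → ℝ) : ℝ :=
  ∫ g, ecnd μ0 C f (pU C ε D D' θ g) (fun z x => pV C ε D D' θ g z x * φ g z x) 0 (fun _ _ => 0)
    ∂stdG (Fin m)

omit [DecidableEq ι] in
theorem integrable_one_add_abs : Integrable (fun g : Fin m → ℝ => 1 + ∑ i, |g i|) (stdG (Fin m)) :=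
  ((gaussSize (Fin m)).int 1).mono'
    ((show Measurable fun g : Fin m → ℝ => 1 + ∑ i, |g i| from
      (Finset.measurable_sum _ fun i _ => (measurable_pi_apply i).abs).const_add 1).aestronglyMeasurable)
    (ae_of_all _ fun g => by
      rw [Real.norm_eq_abs, abs_of_nonneg (by positivity), one_mul]
      show 1 + ∑ i, |g i| ≤ exp (∑ i, |g i|)
      linarith [add_one_le_exp (∑ i, |g i|)])

omit [DecidableEq ι] in
/-- Velocity against a slot: admissible, measurable in the row and dominated. -/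
theorem slot_ok (hf : Cpt R B f) {θ : ℝ} {A : ℝ} (hA : 0 ≤ A)
    (hb : ∀ g z x, |pU C ε D D' θ g z x| ≤ R → |pV C ε D D' θ g z x| ≤ A * wgt z g)
    {φ : (Fin m → ℝ) → (Fin k → ι → ℝ) → X0 × ℝ → ℝ} (hφ : Slt R (pU C ε D D' θ) φ) {M : ℝ}
    (hM : ∀ g z x, |φ g z x| ≤ M) :
    (∀ g, Tame (gaussSize ι) fun z x => pV C ε D D' θ g z x * φ g z x) ∧
    Measurable (fun g => ecnd μ0 C f (pU C ε D D' θ g)
      (fun z x => pV C ε D D' θ g z x * φ g z x) 0 (fun _ _ => 0)) ∧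
    ∀ g, |ecnd μ0 C f (pU C ε D D' θ g) (fun z x => pV C ε D D' θ g z x * φ g z x) 0 (fun _ _ => 0)|
      ≤ |M| * A * exp (2 * B) * cnd (stdG ι) (μ0.prod (gaussianReal 0 1)) C.base
          (fun z _ => 1 + (gaussSize ι).tot z) 0 (fun _ _ => 0) * (1 + ∑ i, |g i|) := by
  have hψ : ∀ g : Fin m → ℝ,
      Tame (gaussSize ι) fun (z : Fin k → ι → ℝ) (_ : X0 × ℝ) => |M| * A * wgt z g :=
    fun g => tame_wgt _ g
  have hbd : ∀ g z x, |pV C ε D D' θ g z x * φ g z x| ≤ |M| * A * wgt z g := fun g z x => by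
    have hw := zero_le_one.trans (wgt_one_le z g)
    rcases lt_or_ge R |pU C ε D D' θ g z x| with hlt | hle
    · rw [hφ.zero g z x hlt, mul_zero, abs_zero]; positivity
    · rw [abs_mul]
      calc |pV C ε D D' θ g z x| * |φ g z x| ≤ A * wgt z g * |M| :=
            mul_le_mul (hb g z x hle) ((hM g z x).trans (le_abs_self M)) (abs_nonneg _) (by positivity)
        _ = _ := by ring
  have hJ : JM fun g z x => pV C ε D D' θ g z x * φ g z x := (pV_jm C ε D D' θ).mul hφ.pb.meas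
  have hT : ∀ g, Tame (gaussSize ι) fun z x => pV C ε D D' θ g z x * φ g z x := fun g => by
    obtain ⟨A', hA', hb'⟩ := (hψ g).bound
    exact ⟨hJ.at' g, A', hA', fun z x => (hbd g z x).trans ((le_abs_self _).trans (hb' z x))⟩
  refine ⟨hT, cnd_measurable_param_at (P := Fin m → ℝ) (H := fun g => ham1 C.base f (pU C ε D D' θ g))
    (φ := fun g z x => pV C ε D D' θ g z x * φ g z x)
    (jm_ham1 C.base_lin hf.meas (pU_jm C ε D D' θ)) hJ 0 _, fun g => ?_⟩
  refine (cnd_unif C.base_lin (linB_ham1 C.base_lin hf ((pU_jm C ε D D' θ).at' g)) (L := B)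
    (fun z x => by simpa [ham1] using hf.bound _) (hT g) (hψ g) (hbd g) (Nat.zero_le k) _).trans (le_of_eq ?_)
  have e : (fun (z : Fin k → ι → ℝ) (_ : X0 × ℝ) => |M| * A * wgt z g)
      = fun z _ => |M| * A * (1 + ∑ i, |g i|) * (1 + (gaussSize ι).tot z) := by
    funext z x; simp only [wgt]; ring
  rw [e, cnd_const_mul]
  ring

omit [DecidableEq ι] in
theorem vel_integrable (hf : Cpt R B f) {θ : ℝ} {A : ℝ} (hA : 0 ≤ A)
    (hb : ∀ g z x, |pU C ε D D' θ g z x| ≤ R → |pV C ε D D' θ g z x| ≤ A * wgt z g)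
    {φ : (Fin m → ℝ) → (Fin k → ι → ℝ) → X0 × ℝ → ℝ} (hφ : Slt R (pU C ε D D' θ) φ) :
    Integrable (fun g => ecnd μ0 C f (pU C ε D D' θ g)
      (fun z x => pV C ε D D' θ g z x * φ g z x) 0 (fun _ _ => 0)) (stdG (Fin m)) := by
  obtain ⟨M, hM⟩ := hφ.pb.bound
  obtain ⟨-, hm, hd⟩ := slot_ok (μ0 := μ0) C ε D D' hf hA hb hφ hM
  exact (integrable_one_add_abs.const_mul _).mono' hm.aestronglyMeasurable (ae_of_all _ hd)

omit [DecidableEq ι] in
/-- `vel` is linear on slots. -/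
theorem vel_lin (hf : Cpt R B f) (hD : ∀ l, 0 ≤ D l) (hD' : ∀ l, 0 ≤ D' l) {θ : ℝ} (h0 : 0 < θ)
    (h1 : θ < π / 2) {σ : Type} (s : Finset σ) (c : σ → ℝ)
    {φ : σ → (Fin m → ℝ) → (Fin k → ι → ℝ) → X0 × ℝ → ℝ} (hφ : ∀ i ∈ s, Slt R (pU C ε D D' θ) (φ i)) :
    vel μ0 C ε D D' f θ (fun g z x => ∑ i ∈ s, c i * φ i g z x)
      = ∑ i ∈ s, c i * vel μ0 C ε D D' f θ (φ i) := by
  obtain ⟨r, A, hr, hA, -, hb⟩ := path_fam C ε D D' hD hD' h0 h1 R
  have hb' := hb θ (by simpa using hr)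
  have hI := fun i hi => (vel_integrable (μ0 := μ0) C ε D D' hf hA hb' (hφ i hi)).const_mul (c i)
  simp only [vel, ← integral_const_mul]
  rw [← integral_finsetSum s hI]
  refine integral_congr_ae (ae_of_all _ fun g => ?_)
  have hL := linB_ham1 C.base_lin hf ((pU_jm C ε D D' θ).at' g)
  have e : (fun z x => pV C ε D D' θ g z x * ∑ i ∈ s, c i * φ i g z x)
      = fun z x => ∑ i ∈ s, c i * (pV C ε D D' θ g z x * φ i g z x) := by
    funext z x
    rw [mul_sum]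
    exact sum_congr rfl fun i _ => by ring
  simp only [ecnd]
  rw [e, cnd_finsum hL s fun i hi => ?_]
  · simp only [cnd_const_mul]
  · obtain ⟨M, hM⟩ := (hφ i hi).pb.bound
    exact ((slot_ok (μ0 := μ0) C ε D D' hf hA hb' (hφ i hi) hM).1 g).const_mul _

omit [DecidableEq ι] in
/-- Differentiation of an averaged root value along the path. -/
theorem hasDerivAt_root (hf : Cpt R B f) (hD : ∀ l, 0 ≤ D l) (hD' : ∀ l, 0 ≤ D' l) {θ₀ : ℝ}
    (h0 : 0 < θ₀) (h1 : θ₀ < π / 2) {V : ℝ → (Fin m → ℝ) → ℝ} (hVm : ∀ θ, Measurable (V θ))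
    {Mv : ℝ} (hVb : ∀ θ g, |V θ g| ≤ Mv) {φ : ℝ → (Fin m → ℝ) → (Fin k → ι → ℝ) → X0 × ℝ → ℝ}
    (hφ : ∀ θ, Slt R (pU C ε D D' θ) (φ θ)) {M : ℝ} (hM : ∀ θ g z x, |φ θ g z x| ≤ M)
    (hd : ∀ g s r, Fam (gaussSize ι) R (fun θ => pU C ε D D' θ g) (fun θ => pV C ε D D' θ g) s r →
      HasDerivAt (fun θ => V θ g)
        (ecnd μ0 C f (pU C ε D D' s g) (fun z x => pV C ε D D' s g z x * φ s g z x) 0 (fun _ _ => 0)) s) :
    HasDerivAt (fun θ => ∫ g, V θ g ∂stdG (Fin m)) (vel μ0 C ε D D' f θ₀ (φ θ₀)) θ₀ := by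
  obtain ⟨r, A, hr, hA, hFam, hb⟩ := path_fam C ε D D' hD hD' h0 h1 R
  have ok := fun θ (hθ : |θ - θ₀| < r) =>
    slot_ok (μ0 := μ0) C ε D D' hf hA (hb θ hθ) (hφ θ) (hM θ)
  refine (hasDerivAt_integral_of_dominated_loc_of_deriv_le (μ := stdG (Fin m))
    (F := V)
    (F' := fun θ g => ecnd μ0 C f (pU C ε D D' θ g)
      (fun z x => pV C ε D D' θ g z x * φ θ g z x) 0 (fun _ _ => 0))
    (bound := fun g => |M| * A * exp (2 * B) * cnd (stdG ι) (μ0.prod (gaussianReal 0 1)) C.base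
      (fun z _ => 1 + (gaussSize ι).tot z) 0 (fun _ _ => 0) * (1 + ∑ i, |g i|))
    (Metric.ball_mem_nhds θ₀ hr) (Filter.Eventually.of_forall fun θ => (hVm θ).aestronglyMeasurable)
    (Integrable.of_bound (hVm θ₀).aestronglyMeasurable Mv (ae_of_all _ fun g => hVb θ₀ g))
    (ok θ₀ (by simpa using hr)).2.1.aestronglyMeasurable ?_ (integrable_one_add_abs.const_mul _) ?_).2
  · refine ae_of_all _ fun g θ hθ => ?_
    rw [Metric.mem_ball, Real.dist_eq] at hθ
    exact (ok θ hθ).2.2 g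
  · refine ae_of_all _ fun g θ hθ => ?_
    rw [Metric.mem_ball, Real.dist_eq] at hθ
    exact hd g θ _ ((hFam g).recentre hθ)

omit [DecidableEq ι] in
/-- Nested expectations of bounded continuous observables are continuous on the path. -/
theorem continuous_cnd_path (hf : Cpt R B f) (hfc : Continuous f) (g : Fin m → ℝ)
    {φ : ℝ → (Fin k → ι → ℝ) → X0 × ℝ → ℝ} (hφm : ∀ t, Measurable (Function.uncurry (φ t))) {M : ℝ}
    (hφb : ∀ t z x, |φ t z x| ≤ M) (hφc : ∀ z x, Continuous fun t => φ t z x) (l : ℕ)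
    (z : Fin k → ι → ℝ) :
    Continuous (fun θ => val (stdG ι) (μ0.prod (gaussianReal 0 1)) (ham1 C.base f (pU C ε D D' θ g)) l z) ∧
    Continuous (fun θ => ecnd μ0 C f (pU C ε D D' θ g) (φ θ) l z) := by
  refine cnd_continuous (H0 := C.base) (d := fun θ z x => f (pU C ε D D' θ g z x)) C.base_lin (L := B)
    (fun θ => hf.meas.comp ((pU_jm C ε D D' θ).at' g)) (fun θ z x => hf.bound _) (fun z x => ?_)
    hφm hφb hφc l z
  refine hfc.comp ?_
  simp only [pU, Cas.fld, Cas.lin]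
  exact ((((continuous_const.mul continuous_cos).mul continuous_const).add
    (continuous_finsetSum _ fun l _ => continuous_amp.mul continuous_const)).add
    (continuous_amp.mul continuous_const)).add continuous_const

end Vale.Agent.P166.Rsb.Slot
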