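import Vale.Agent.P166.Rsb.Slot.Cascade

/-!
# P166: the variation of the field in expectation

The interpolation of `Vale.Agent.P157.Rsb.Slot`, for a field with an offset that depends on the leaf
and a row whose squared length is only close to the total variance.
-/

open MeasureTheory ProbabilityTheory Real Finset
open Vale.Agent.P157.Rsb
open Vale.Agent.P157.Rsb.Slot

namespace Vale.Agent.P166.Rsb.Slot


variable {k m : ℕ} {ι X0 : Type} [Fintype ι] [DecidableEq ι] [MeasurableSpace X0]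
  {μ0 : Measure X0} [IsProbabilityMeasure μ0] (C : Cas k m ι X0)
  {f f1 f2 f3 : ℝ → ℝ} {R B : ℝ}
  {N1 N2 : ((Fin k → ι → ℝ) → X0 × ℝ → ℝ) → (Fin k → ι → ℝ) → ℝ}
  {η1 η2 : ((Fin k → ι → ℝ) → X0 × ℝ → ℝ) → (Fin k → ι → ℝ) → X0 × ℝ → ℝ}
  {l1 l2 : ℕ} {M1 M2 : ℝ} {h h' : ℝ → ℝ}

variable (μ0) in
/-- The kernel applied to a slot in the inner leaf. -/
noncomputable def cker (f : ℝ → ℝ) (ev ev' : ℝ) (cv cv' : ℕ → ℝ)
    (U η : (Fin k → ι → ℝ) → X0 × ℝ → ℝ) (l : ℕ) (z : Fin k → ι → ℝ) (x : X0 × ℝ) : ℝ :=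
  ecnd μ0 C f U (fun z y => C.ker ev ev' cv cv' l x.1 y.1 * η z y) l z

variable (μ0) in
/-- The observable that replaces the velocity of the field times a monomial. -/
noncomputable def mix (f f1 : ℝ → ℝ) (b : X0 → ℝ) (h : ℝ → ℝ) (l1 l2 : ℕ) (ev ev' : ℝ) (cv cv' : ℕ → ℝ)
    (U : (Fin k → ι → ℝ) → X0 × ℝ → ℝ) (n1 n2 : (Fin k → ι → ℝ) → ℝ)
    (e1 e2 : (Fin k → ι → ℝ) → X0 × ℝ → ℝ) (z : Fin k → ι → ℝ) (x : X0 × ℝ) : ℝ :=
  b x.1 * h (U z x) * (cker μ0 C f ev ev' cv cv' U e1 l1 z x * n2 z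
    + n1 z * cker μ0 C f ev ev' cv cv' U e2 l2 z x
    - mass k * (∑ l ∈ Icc 0 k, cker μ0 C f ev ev' cv cv' U (fun z y => f1 (U z y)) l z x)
      * (n1 z * n2 z))

/-- The defect of the diagonal of the kernel. -/
def dvar (ev ev' : ℝ) (cv cv' : ℕ → ℝ) (x : X0) : ℝ :=
  ev' * ev * sdot (C.p x) (C.p x) + ∑ a ∈ range (k + 1), cv' (a + 1) * cv (a + 1)

variable (μ0) in
/-- `mix` with the defect of the diagonal. -/
noncomputable def mixD (f f1 : ℝ → ℝ) (b : X0 → ℝ) (h h' : ℝ → ℝ) (l1 l2 : ℕ) (ev ev' : ℝ) (cv cv' : ℕ → ℝ)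
    (U : (Fin k → ι → ℝ) → X0 × ℝ → ℝ) (n1 n2 : (Fin k → ι → ℝ) → ℝ)
    (e1 e2 : (Fin k → ι → ℝ) → X0 × ℝ → ℝ) (z : Fin k → ι → ℝ) (x : X0 × ℝ) : ℝ :=
  b x.1 * (h' (U z x) + h (U z x) * f1 (U z x)) * (n1 z * n2 z) * dvar C ev ev' cv cv' x.1
    + mix μ0 C f f1 b h l1 l2 ev ev' cv cv' U n1 n2 e1 e2 z x

omit [DecidableEq ι] in
theorem ecnd_smul (U : (Fin k → ι → ℝ) → X0 × ℝ → ℝ) (c : ℝ) (η : (Fin k → ι → ℝ) → X0 × ℝ → ℝ)
    (l : ℕ) (z : Fin k → ι → ℝ) :
    ecnd μ0 C f U (fun z y => c * η z y) l z = c * ecnd μ0 C f U η l z ∧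
    ecnd μ0 C f U (fun z y => η z y * c) l z = c * ecnd μ0 C f U η l z := by
  refine ⟨cnd_const_mul c l z, ?_⟩
  unfold ecnd
  rw [show (fun z y => η z y * c) = fun z y => c * η z y from funext₂ fun z y => mul_comm _ _,
    cnd_const_mul]

omit [DecidableEq ι] in
theorem cker_eq (ev ev' : ℝ) (cv cv' : ℕ → ℝ) {U η : (Fin k → ι → ℝ) → X0 × ℝ → ℝ}
    (hf : Cpt R B f) (hU : Measurable (Function.uncurry U)) (hη : PB fun _ : Unit => η) (l : ℕ)
    (z : Fin k → ι → ℝ) (x : X0 × ℝ) :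
    cker μ0 C f ev ev' cv cv' U η l z x
      = ∑ i, ev' * C.p x.1 i * ecnd μ0 C f U (fun z y => ev * C.p y.1 i * η z y) l z
        + (∑ a ∈ range l, cv' (a + 1) * cv (a + 1)) * ecnd μ0 C f U η l z := by
  obtain ⟨P, hP0, hPb⟩ := C.p_bdd
  have hL := linB_ham1 C.base_lin hf hU
  have hi : ∀ i, PB fun (_ : Unit) z y => ev' * C.p x.1 i * (ev * C.p y.1 i * η z y) := fun i =>
    ((pb_fst (b := fun y => ev * C.p y i) ((C.p_coord i).const_mul ev) (M := |ev| * P) fun y => by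
      rw [abs_mul]; exact mul_le_mul_of_nonneg_left (hPb _ _) (abs_nonneg _)).mul hη).const_mul _
  have e : (fun (z : Fin k → ι → ℝ) (y : X0 × ℝ) => C.ker ev ev' cv cv' l x.1 y.1 * η z y)
      = fun z y => ∑ i, ev' * C.p x.1 i * (ev * C.p y.1 i * η z y)
          + (∑ a ∈ range l, cv' (a + 1) * cv (a + 1)) * η z y := by
    funext z y
    simp only [Cas.ker, sdot, add_mul, mul_sum, sum_mul]
    congr 1
    exact sum_congr rfl fun i _ => by ring
  unfold cker ecnd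
  rw [e, cnd_add hL ((PB.finsum univ fun i _ => hi i).tame ()) ((hη.const_mul _).tame ()),
    cnd_finsum hL univ fun i _ => (hi i).tame (), cnd_const_mul]
  simp only [cnd_const_mul]

variable (hP : Pot R B f f1 f2 f3)
  (h1 : Nd (stdG ι) (μ0.prod (gaussianReal 0 1)) (gaussSize ι) C.base f R N1 η1 l1 M1)
  (h2 : Nd (stdG ι) (μ0.prod (gaussianReal 0 1)) (gaussSize ι) C.base f R N2 η2 l2 M2)
  (hh : Cpt R B h) (hh' : Cpt R B h') (hhd : ∀ u, HasDerivAt h (h' u) u)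
  {b : X0 → ℝ} (hb : Measurable b) {Mb : ℝ} (hbb : ∀ x, |b x| ≤ Mb)
  (ev ev' : ℝ) (cv cv' : ℕ → ℝ)

include hP h1 h2 in
omit [DecidableEq ι] in
theorem sum_res_eq {U : (Fin k → ι → ℝ) → X0 × ℝ → ℝ} (hU : Measurable (Function.uncurry U))
    (z : Fin k → ι → ℝ) (x : X0 × ℝ) :
    ∑ i, res C μ0 f f1 (fun y => ev' * C.p y i * b y) h h' l1 l2 U (N1 U) (N2 U) (η1 U) (η2 U)
        (fun y => ev * C.p y i) (fun y => ev * C.p y i) (fun y => ev * C.p y i) (Icc 0 k) z x
      + ∑ a : Fin k, cv' (a + 1) * res C μ0 f f1 b h h' l1 l2 U (N1 U) (N2 U) (η1 U) (η2 U)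
        (fun _ => cv (a + 1)) (fun _ => if (a : ℕ) < l1 then cv (a + 1) else 0)
        (fun _ => if (a : ℕ) < l2 then cv (a + 1) else 0) (Icc ((a : ℕ) + 1) k) z x
      + cv' (k + 1) * res C μ0 f f1 b h h' l1 l2 U (N1 U) (N2 U) (η1 U) (η2 U)
        (fun _ => cv (k + 1)) (fun _ => 0) (fun _ => 0) ∅ z x
      = mixD μ0 C f f1 b h h' l1 l2 ev ev' cv cv' U (N1 U) (N2 U) (η1 U) (η2 U) z x := by
  have hJ : JM fun _ : Unit => U := JM.of_unit hU
  have pf : PB fun (_ : Unit) z y => f1 (U z y) := pb_comp hJ hP.hf1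
  simp only [mixD, mix, cker_eq C ev ev' cv cv' hP.hf hU (h1.pbη hJ),
    cker_eq C ev ev' cv cv' hP.hf hU (h2.pbη hJ), cker_eq C ev ev' cv cv' hP.hf hU pf]
  set e1 := fun i => ecnd μ0 C f U (fun z y => ev * C.p y.1 i * η1 U z y) l1 z with he1
  set e2 := fun i => ecnd μ0 C f U (fun z y => ev * C.p y.1 i * η2 U z y) l2 z with he2
  set ef := fun i l => ecnd μ0 C f U (fun z y => ev * C.p y.1 i * f1 (U z y)) l z with hef
  set A := b x.1 * (h' (U z x) + h (U z x) * f1 (U z x)) * (N1 U z * N2 U z) with hA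
  set P1 := b x.1 * h (U z x) * N2 U z with hP1
  set P2 := b x.1 * h (U z x) * N1 U z with hP2
  set E := mass k * (b x.1 * h (U z x) * (N1 U z * N2 U z)) with hE
  have r1 : ∀ i, res C μ0 f f1 (fun y => ev' * C.p y i * b y) h h' l1 l2 U (N1 U) (N2 U) (η1 U) (η2 U)
      (fun y => ev * C.p y i) (fun y => ev * C.p y i) (fun y => ev * C.p y i) (Icc 0 k) z x
      = A * (ev' * ev * (C.p x.1 i * C.p x.1 i)) + P1 * (ev' * C.p x.1 i * e1 i)
        + P2 * (ev' * C.p x.1 i * e2 i) - E * (∑ l ∈ Icc 0 k, ev' * C.p x.1 i * ef i l) := fun i => by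
    have ec : ∀ l, ecnd μ0 C f U (fun z y => f1 (U z y) * (ev * C.p y.1 i)) l z = ef i l := fun l => by
      simp only [hef]
      congr 1
      funext z y
      ring
    simp only [res, dObs, obs, ec, ← sum_mul, hA, hP1, hP2, hE, he1, he2, ← mul_sum]
    ring
  have r2 : ∀ a : Fin k, cv' (a + 1) * res C μ0 f f1 b h h' l1 l2 U (N1 U) (N2 U) (η1 U) (η2 U)
      (fun _ => cv (a + 1)) (fun _ => if (a : ℕ) < l1 then cv (a + 1) else 0)
      (fun _ => if (a : ℕ) < l2 then cv (a + 1) else 0) (Icc ((a : ℕ) + 1) k) z x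
      = A * (cv' (a + 1) * cv (a + 1))
        + P1 * ((if (a : ℕ) < l1 then cv' (a + 1) * cv (a + 1) else 0) * ecnd μ0 C f U (η1 U) l1 z)
        + P2 * ((if (a : ℕ) < l2 then cv' (a + 1) * cv (a + 1) else 0) * ecnd μ0 C f U (η2 U) l2 z)
        - E * (cv' (a + 1) * cv (a + 1)
            * ∑ l ∈ Icc ((a : ℕ) + 1) k, ecnd μ0 C f U (fun z y => f1 (U z y)) l z) := fun a => by
    simp only [res, dObs, obs, (ecnd_smul C U _ _ _ _).1,
      (ecnd_smul C U (cv (a + 1)) (fun z y => f1 (U z y)) _ _).2, ← sum_mul, ← mul_sum, hA, hP1, hP2, hE]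
    split_ifs <;> ring
  have r3 : cv' (k + 1) * res C μ0 f f1 b h h' l1 l2 U (N1 U) (N2 U) (η1 U) (η2 U)
      (fun _ => cv (k + 1)) (fun _ => 0) (fun _ => 0) ∅ z x = A * (cv' (k + 1) * cv (k + 1)) := by
    simp only [res, dObs, obs, (ecnd_smul C U _ _ _ _).1, sum_empty, hA]
    ring
  rw [sum_congr rfl fun i _ => r1 i, sum_congr rfl fun a _ => r2 a, r3, sum_lin4, sum_lin4,
    ← sum_mul, ← sum_mul, sum_fin_ite k l1 h1.lk (fun a => cv' (a + 1) * cv (a + 1)),
    sum_fin_ite k l2 h2.lk (fun a => cv' (a + 1) * cv (a + 1)),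
    sum_fin_above k (fun a => cv' (a + 1) * cv (a + 1)) fun l => ecnd μ0 C f U (fun z y => f1 (U z y)) l z,
    Fin.sum_univ_eq_sum_range (fun a => cv' (a + 1) * cv (a + 1)) k]
  have hd : dvar C ev ev' cv cv' x.1 = ∑ i, ev' * ev * (C.p x.1 i * C.p x.1 i)
      + ((∑ a ∈ range k, cv' (a + 1) * cv (a + 1)) + cv' (k + 1) * cv (k + 1)) := by
    rw [dvar, sum_range_succ, sdot, mul_sum]
  rw [sum_comm (s := univ) (t := Icc 0 k)]
  have hzero : A * ∑ i, ev' * ev * (C.p x.1 i * C.p x.1 i)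
      + A * (∑ a ∈ range k, cv' (a + 1) * cv (a + 1)) + A * (cv' (k + 1) * cv (k + 1))
      = A * dvar C ev ev' cv cv' x.1 := by
    linear_combination -A * hd
  simp only [sum_add_distrib, hP1, hP2, hE, he1, he2, hef] at hzero ⊢
  rw [hA] at hzero ⊢
  linear_combination hzero

include hP in
omit [DecidableEq ι] in
/-- Root values of bounded observables are measurable and bounded in the row. -/
theorem pb_root {F : (Fin m → ℝ) → (Fin k → ι → ℝ) → X0 × ℝ → ℝ} (hF : PB F) (z : Fin k → ι → ℝ) :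
    Measurable (fun g => ecnd μ0 C f (C.fld ev cv g) (F g) 0 z) ∧
      ∃ M, ∀ g, |ecnd μ0 C f (C.fld ev cv g) (F g) 0 z| ≤ M := by
  obtain ⟨M, hM⟩ := hF.bound
  exact ⟨cnd_measurable_param_at (P := Fin m → ℝ) (H := fun g => ham1 C.base f (C.fld ev cv g))
      (φ := F) (jm_ham1 C.base_lin hP.hf.meas (C.fld_jm ev cv)) hF.meas 0 z,
    M, fun g => cnd_abs_le (linB_ham1 C.base_lin hP.hf ((C.fld_jm ev cv).at' g)) (hF.meas.at' g) (hM g) 0 z⟩

theorem integrable_coord_mul {G : (Fin m → ℝ) → ℝ} (hm : Measurable G) {M : ℝ} (hb : ∀ g, |G g| ≤ M)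
    (i : Fin m) : Integrable (fun g => g i * G g) (stdG (Fin m)) := by
  refine (((gaussSize (Fin m)).int 1).const_mul |M|).mono'
    ((measurable_pi_apply i).mul hm).aestronglyMeasurable (ae_of_all _ fun g => ?_)
  rw [Real.norm_eq_abs, abs_mul, mul_comm]
  refine mul_le_mul ((hb g).trans (le_abs_self M)) ?_ (abs_nonneg _) (abs_nonneg _)
  rw [one_mul]
  show |g i| ≤ exp (∑ a, |g a|)
  exact (single_le_sum (f := fun a => |g a|) (fun _ _ => abs_nonneg _) (mem_univ i)).trans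
    (by linarith [add_one_le_exp (∑ a, |g a|)])

include hP h1 h2 hh hh' hhd hb hbb in
/-- The velocity of the field against a monomial equals the kernel expression. -/
theorem integral_velocity
    (hc : cv (k + 1) = 0 → cv' (k + 1) = 0) (z : Fin k → ι → ℝ) :
    ∫ g, ecnd μ0 C f (C.fld ev cv g) (fun z x => C.lin ev' cv' g z x
        * obs b h (C.fld ev cv g) (N1 (C.fld ev cv g)) (N2 (C.fld ev cv g)) z x) 0 z ∂stdG (Fin m)
      = ∫ g, ecnd μ0 C f (C.fld ev cv g) (mixD μ0 C f f1 b h h' l1 l2 ev ev' cv cv' (C.fld ev cv g)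
          (N1 (C.fld ev cv g)) (N2 (C.fld ev cv g)) (η1 (C.fld ev cv g)) (η2 (C.fld ev cv g))) 0 z
          ∂stdG (Fin m) := by
  obtain ⟨P, hP0, hPb⟩ := C.p_bdd
  have hU : JM (C.fld ev cv) := C.fld_jm ev cv
  have hbi : ∀ i, Measurable fun y => ev' * C.p y i * b y := fun i =>
    ((C.p_coord i).const_mul ev').mul hb
  have hbib : ∀ i y, |ev' * C.p y i * b y| ≤ |ev'| * P * |Mb| := fun i y => by
    rw [abs_mul, abs_mul]
    exact mul_le_mul (mul_le_mul_of_nonneg_left (hPb _ _) (abs_nonneg _))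
      ((hbb y).trans (le_abs_self _)) (abs_nonneg _) (by positivity)
  have hvp : ∀ i y, |ev * C.p y i| ≤ |ev| * P := fun i y => by
    rw [abs_mul]; exact mul_le_mul_of_nonneg_left (hPb _ _) (abs_nonneg _)
  have hcm : ∀ c : ℝ, Measurable fun _ : X0 => c := fun c => measurable_const
  have hcb : ∀ c : ℝ, ∀ _ : X0, |c| ≤ |c| := fun c _ => le_rfl
  have pO := fun i => pb_obs C h1 h2 hh hU (hbi i) (hbib i)
  have pR1 := fun i => pb_res (μ0 := μ0) C hP h1 h2 hh hh' hU (hbi i) (hbib i)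
    ((C.p_coord i).const_mul ev) (hvp i) ((C.p_coord i).const_mul ev) (hvp i)
    ((C.p_coord i).const_mul ev) (hvp i) (Icc 0 k)
  have pR2 := fun a : Fin k => (pb_res (μ0 := μ0) C hP h1 h2 hh hh' hU hb hbb
    (hcm (cv (a + 1))) (hcb _) (hcm (if (a : ℕ) < l1 then cv (a + 1) else 0)) (hcb _)
    (hcm (if (a : ℕ) < l2 then cv (a + 1) else 0)) (hcb _) (Icc ((a : ℕ) + 1) k)).const_mul (cv' (a + 1))
  have pR3 := (pb_res (μ0 := μ0) C hP h1 h2 hh hh' hU hb hbb
    (hcm (cv (k + 1))) (hcb _) (hcm 0) (hcb _) (hcm 0) (hcb _) ∅).const_mul (cv' (k + 1))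
  have pR := ((PB.finsum univ fun a _ => pR2 a).add pR3)
  -- one row coordinate
  set G : Fin m → (Fin m → ℝ) → ℝ := fun i g => ecnd μ0 C f (C.fld ev cv g)
    (obs (fun y => ev' * C.p y i * b y) h (C.fld ev cv g) (N1 (C.fld ev cv g)) (N2 (C.fld ev cv g))) 0 z
    with hG
  set G' : Fin m → (Fin m → ℝ) → ℝ := fun i g => ecnd μ0 C f (C.fld ev cv g)
    (res C μ0 f f1 (fun y => ev' * C.p y i * b y) h h' l1 l2 (C.fld ev cv g) (N1 (C.fld ev cv g))
      (N2 (C.fld ev cv g)) (η1 (C.fld ev cv g)) (η2 (C.fld ev cv g)) (fun y => ev * C.p y i)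
      (fun y => ev * C.p y i) (fun y => ev * C.p y i) (Icc 0 k)) 0 z with hG'
  set Rest : (Fin m → ℝ) → ℝ := fun g => ecnd μ0 C f (C.fld ev cv g)
    (fun z x => ∑ a : Fin k, cv' (a + 1) * res C μ0 f f1 b h h' l1 l2 (C.fld ev cv g)
        (N1 (C.fld ev cv g)) (N2 (C.fld ev cv g)) (η1 (C.fld ev cv g)) (η2 (C.fld ev cv g))
        (fun _ => cv (a + 1)) (fun _ => if (a : ℕ) < l1 then cv (a + 1) else 0)
        (fun _ => if (a : ℕ) < l2 then cv (a + 1) else 0) (Icc ((a : ℕ) + 1) k) z x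
      + cv' (k + 1) * res C μ0 f f1 b h h' l1 l2 (C.fld ev cv g)
        (N1 (C.fld ev cv g)) (N2 (C.fld ev cv g)) (η1 (C.fld ev cv g)) (η2 (C.fld ev cv g))
        (fun _ => cv (k + 1)) (fun _ => 0) (fun _ => 0) ∅ z x) 0 z with hRest
  have mG := fun i => pb_root (μ0 := μ0) C hP ev cv (pO i) z
  have mG' := fun i => pb_root (μ0 := μ0) C hP ev cv (pR1 i) z
  obtain ⟨mR, MR, bR⟩ := pb_root (μ0 := μ0) C hP ev cv pR z
  have ibp : ∀ i, ∫ g, g i * G i g ∂stdG (Fin m) = ∫ g, G' i g ∂stdG (Fin m) := fun i => by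
    obtain ⟨m1, A1, b1⟩ := mG i
    obtain ⟨m2, A2, b2⟩ := mG' i
    refine gauss_ibp i (fun g => hasDerivAt_row C hP h1 h2 hh hh' hhd (hbi i) (hbib i) ev cv g i z) m1 m2
      ⟨|A1| + |A2|, fun g => ?_⟩
    have hE : 1 ≤ exp ((|A1| + |A2|) * ∑ a, |g a|) := one_le_exp (by positivity)
    constructor
    · exact ((b1 g).trans (by linarith [le_abs_self A1, abs_nonneg A2])).trans
        (le_mul_of_one_le_right (by positivity) hE)
    · exact ((b2 g).trans (by linarith [le_abs_self A2, abs_nonneg A1])).trans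
        (le_mul_of_one_le_right (by positivity) hE)
  have split : ∀ g, ecnd μ0 C f (C.fld ev cv g) (fun z x => C.lin ev' cv' g z x
      * obs b h (C.fld ev cv g) (N1 (C.fld ev cv g)) (N2 (C.fld ev cv g)) z x) 0 z
      = ∑ i, g i * G i g + Rest g := by
    intro g
    set U := C.fld ev cv g with hUdef
    have hUm : Measurable (Function.uncurry U) := hU.at' g
    have hL := linB_ham1 C.base_lin hP.hf hUm
    have t1 : ∀ i, Tame (gaussSize ι) fun z x =>
        g i * obs (fun y => ev' * C.p y i * b y) h U (N1 U) (N2 U) z x :=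
      fun i => ((pO i).const_mul (g i)).tame g
    have tb := (pb_obs C h1 h2 hh hU hb hbb).tame (w := gaussSize ι) g
    have t2 : ∀ a : Fin k, Tame (gaussSize ι) fun z x =>
        cv' (a + 1) * (z a C.i0 * obs b h U (N1 U) (N2 U) z x) :=
      fun a => ((Cas.tame_coord a C.i0).mul tb).const_mul _
    have t3 : Tame (gaussSize ι) fun z x => cv' (k + 1) * (x.2 * obs b h U (N1 U) (N2 U) z x) := by
      by_cases h0 : cv (k + 1) = 0
      · simp only [hc h0, zero_mul]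
        exact Tame.of_bdd measurable_const (B := 0) fun _ _ => by simp
      · exact (tame_leaf_obs C h1 h2 hh hb hbb ev cv h0 g).const_mul _
    have e : (fun z x => C.lin ev' cv' g z x * obs b h U (N1 U) (N2 U) z x)
        = fun z x => ∑ i, g i * obs (fun y => ev' * C.p y i * b y) h U (N1 U) (N2 U) z x
          + (∑ a : Fin k, cv' (a + 1) * (z a C.i0 * obs b h U (N1 U) (N2 U) z x)
            + cv' (k + 1) * (x.2 * obs b h U (N1 U) (N2 U) z x)) := by
      funext z x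
      simp only [Cas.lin, sdot, obs, add_mul, mul_sum, sum_mul, add_assoc]
      congr 1
      · exact sum_congr rfl fun i _ => by ring
      congr 1
      · exact sum_congr rfl fun i _ => by ring
      · ring
    have t12 := (Tame.sum (w := gaussSize ι) univ fun a _ => t2 a).add t3
    rw [e]
    unfold ecnd
    rw [cnd_add hL (Tame.sum univ fun i _ => t1 i) t12,
      cnd_add hL (Tame.sum univ fun a _ => t2 a) t3, cnd_finsum hL univ (fun i _ => t1 i),
      cnd_finsum hL univ (fun a _ => t2 a)]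
    simp only [cnd_const_mul]
    have l2' := fun a : Fin k => ibp_level C hP h1 h2 hh hh' hhd hb hbb ev cv g a z
    have l3 : cv' (k + 1) * cnd (stdG ι) (μ0.prod (gaussianReal 0 1)) (ham1 C.base f U)
          (fun z x => x.2 * obs b h U (N1 U) (N2 U) z x) 0 z
        = cv' (k + 1) * ecnd μ0 C f U (res C μ0 f f1 b h h' l1 l2 U (N1 U) (N2 U) (η1 U) (η2 U)
            (fun _ => cv (k + 1)) (fun _ => 0) (fun _ => 0) ∅) 0 z := by
      by_cases h0 : cv (k + 1) = 0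
      · simp [hc h0]
      · rw [← ibp_leaf C hP h1 h2 hh hh' hhd hb hbb ev cv h0 g z]; rfl
    unfold ecnd at l2' l3
    simp only [← hUdef] at l2'
    simp only [l2']
    rw [l3]
    simp only [hG, hRest, ecnd]
    congr 1
    rw [cnd_add hL ((PB.finsum univ fun a _ => pR2 a).tame g) (pR3.tame g),
      cnd_finsum hL univ (fun a _ => (pR2 a).tame g)]
    simp only [cnd_const_mul]
    rfl
  simp only [split]
  have iG : ∀ i, Integrable (fun g => g i * G i g) (stdG (Fin m)) := fun i => by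
    obtain ⟨m1, A1, b1⟩ := mG i
    exact integrable_coord_mul m1 b1 i
  have iG' : ∀ i, Integrable (G' i) (stdG (Fin m)) := fun i => by
    obtain ⟨m2, A2, b2⟩ := mG' i
    exact Integrable.of_bound m2.aestronglyMeasurable A2 (ae_of_all _ b2)
  have iR : Integrable Rest (stdG (Fin m)) := Integrable.of_bound mR.aestronglyMeasurable MR (ae_of_all _ bR)
  rw [integral_add (integrable_finsetSum univ fun i _ => iG i) iR,
    integral_finsetSum univ fun i _ => iG i, sum_congr rfl fun i _ => ibp i,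
    ← integral_finsetSum univ fun i _ => iG' i,
    ← integral_add (integrable_finsetSum univ fun i _ => iG' i) iR]
  refine integral_congr_ae (ae_of_all _ fun g => ?_)
  have hL := linB_ham1 C.base_lin hP.hf (hU.at' g)
  simp only [hG', hRest, ecnd]
  rw [← cnd_finsum hL univ (fun i _ => (pR1 i).tame g),
    ← cnd_add hL ((PB.finsum univ fun i _ => pR1 i).tame g) (pR.tame g)]
  congr 1
  funext z x
  rw [← add_assoc]
  exact sum_res_eq C hP h1 h2 ev ev' cv cv' (hU.at' g) z x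

end Vale.Agent.P166.Rsb.Slot
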